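import Vale.Agent.P011.H263.RealNF
import Vale.Agent.P011.Even.Beta
import Vale.Agent.P011.Even.PlaneAlg
import Vale.Agent.P011.Arith.Hasse1

/-!
**A symmetric generator of a maximal subfield**, and the subring which it generates.
-/

open NumberField IsDedekindDomain Module

set_option linter.unusedSectionVars false

namespace Vale.Agent.P011.H263

open Vale.Agent.P011.Arith Vale.Agent.P011.Even

section

variable {K D : Type} [Field K] [StarRing K] [DivisionRing D] [StarRing D] [Algebra K D]

/-- The subalgebra generated by one element is commutative. -/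
theorem adjoin_comm (s₁ : D) : ∀ x ∈ (Algebra.adjoin K {s₁} : Set D),
    ∀ y ∈ (Algebra.adjoin K {s₁} : Set D), Commute x y := by
  have h1 : ∀ x ∈ Algebra.adjoin K {s₁}, Commute x s₁ := by
    intro x hx
    induction hx using Algebra.adjoin_induction with
    | mem x hx =>
      rw [Set.mem_singleton_iff] at hx
      rw [hx]
    | algebraMap r => exact Algebra.commutes r s₁
    | add x y _ _ hx hy => exact hx.add_left hy
    | mul x y _ _ hx hy => exact hx.mul_left hy
  have h2 : ∀ x ∈ Algebra.adjoin K {s₁}, ∀ y ∈ Algebra.adjoin K {s₁}, Commute x y := by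
    intro x hx y hy
    induction hy using Algebra.adjoin_induction with
    | mem y hy =>
      rw [Set.mem_singleton_iff] at hy
      rw [hy]
      exact h1 x hx
    | algebraMap r => exact (Algebra.commutes r x).symm
    | add y z _ _ hy hz => exact hy.add_right hz
    | mul y z _ _ hy hz => exact hy.mul_right hz
  exact h2

/-- The subalgebra generated by a symmetric element is stable under the involution. -/
theorem adjoin_star (hst : ∀ (c : K) (x : D), star (c • x) = star c • star x) {s₁ : D}
    (hs : star s₁ = s₁) : ∀ x ∈ (Algebra.adjoin K {s₁} : Set D),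
      star x ∈ (Algebra.adjoin K {s₁} : Set D) := by
  have h2 : ∀ x ∈ Algebra.adjoin K {s₁}, star x ∈ Algebra.adjoin K {s₁} := by
    intro x hx
    induction hx using Algebra.adjoin_induction with
    | mem x hx =>
      rw [Set.mem_singleton_iff] at hx
      rw [hx, hs]
      exact Algebra.self_mem_adjoin_singleton K s₁
    | algebraMap r =>
      rw [Algebra.algebraMap_eq_smul_one, hst, star_one]
      exact Subalgebra.smul_mem _ (Subalgebra.one_mem _) _
    | add x y _ _ hx hy =>
      rw [star_add]
      exact Subalgebra.add_mem _ hx hy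
    | mul x y _ _ hx hy =>
      rw [star_mul]
      exact Subalgebra.mul_mem _ hy hx
  exact h2

end

variable {k K D : Type} [Field k] [NumberField k] [Field K] [StarRing K]
  [DivisionRing D] [StarRing D] [Algebra k K] [Algebra k D] [Algebra K D] [IsScalarTower k K D]
  {d : kˣ} {s : K} {n : ℕ}

/-- **A symmetric generator of a maximal subfield.** -/
theorem exists_sym (hS : Setting k K D d s) (hn : 0 < n) (hdeg : finrank K D = n ^ 2) :
    ∃ s₁ : D, star s₁ = s₁ ∧ (minpoly K s₁).natDegree = n := by
  have := numberField_of_setting hS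
  have := hS.fin
  have := hS.cen
  have h00 : (1 : D) ≠ 0 := one_ne_zero
  obtain ⟨f⟩ := Vale.Agent.P011S.exists_split (K := K) (D := D) hdeg (AlgebraicClosure K)
  obtain ⟨v₀, _, h2⟩ := exists_nonsplit d hS.ns ∅ Set.finite_empty
  obtain ⟨β, hli, -, -⟩ := exists_beta hS hn hdeg (c0 := (1 : D)) (c2 := (1 : D))
    (star_one D) (star_one D) h00 h00 (V := {v₀}) (Set.finite_singleton _)
    (by rintro v rfl; exact h2) (Or.inl ⟨v₀, rfl⟩)
  set z := (1 : D)⁻¹ * β * 1 * star β with hzdef
  have hzz : z = β * star β := by rw [hzdef, inv_one, one_mul, mul_one]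
  have hzs : star z = z := by
    rw [hzz, star_mul, star_star]
  have hz : star z = 1 * z * 1⁻¹ := by
    rw [inv_one, one_mul, mul_one, hzs]
  obtain ⟨hmn, hmK⟩ := minpoly_map hS hn hdeg f h00 hz hli
  exact ⟨z, hzs, by rw [hmK, Polynomial.natDegree_map, hmn]⟩

end Vale.Agent.P011.H263
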