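import Vale.Agent.P011.H263.RealG
import Vale.Agent.P011.H263.RealS
import Vale.Agent.P011.H518.Real.Fin

/-!
**The real places: the final statement over number fields.**  A local homomorphism at the places
of `T` and at the real places which do not split extends to a local homomorphism at the places of
`T` only.
-/

open NumberField IsDedekindDomain Module Matrix Filter Topology

set_option linter.style.haveILetI false
set_option linter.unusedSectionVars false

namespace Vale.Agent.P011.H263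

open Vale.Agent.P011.H775.Top
open Vale.Agent.P011.Arith Vale.Agent.P011.Even
open Vale.Agent.P011.RP (RData)
open Vale.Agent.P011.H518.Real (Pn Con Two)

variable {k K D : Type} [Field k] [NumberField k] [Field K] [StarRing K]
  [DivisionRing D] [StarRing D] [Algebra k K] [Algebra k D] [Algebra K D] [IsScalarTower k K D]
  {d : kˣ} {s : K} {n N : ℕ}

theorem star_smul_k (hS : Setting k K D d s) (c : k) (x : D) : star (c • x) = c • star x := by
  have h1 : star (algebraMap k K c) = algebraMap k K c := (hS.fix _).mpr ⟨c, rfl⟩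
  rw [← algebraMap_smul K c x, hS.star_smul, h1, algebraMap_smul]

/-- **(R)**: the extension over the real places, for number fields. -/
theorem real_ext (hS : Setting k K D d s) (hn : 0 < n) (hdeg : finrank K D = n ^ 2)
    (B : Basis (Fin N) k D) {T T₀ : Finset (Pl k)} [Nonempty T] [Nonempty T₀]
    (hT : ∀ p ∈ T, ∃ v : HeightOneSpectrum (𝓞 k), p = Sum.inl v)
    (hT₀ : ∀ p, p ∈ T₀ ↔ p ∈ T ∨ ∃ φ : k →+* ℝ, φ d < 0 ∧ p = Sum.inr φ)
    {E : Type*} [AddCommGroup E] {W : Set D} {ch P : D → E}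
    (hc : letI := topD B (av T); H439.Chr K W ch)
    (h1 : ∀ᶠ p in @nhds D (topD B (av T₀)) 1 ×ˢ @nhds D (topD B (av T₀)) 1,
      P (p.1 * p.2) = P p.1 + P p.2)
    (h2 : ∀ᶠ g in @nhds D (topD B (av T₀)) 1, Commute g (star g) →
      P g = ch (star g * g⁻¹)) :
    ∃ V : D → E, (∀ᶠ p in @nhds D (topD B (av T)) 1 ×ˢ @nhds D (topD B (av T)) 1,
        V (p.1 * p.2) = V p.1 + V p.2) ∧
      (∀ᶠ g in @nhds D (topD B (av T)) 1, Commute g (star g) → V g = ch (star g * g⁻¹)) ∧
      ∀ᶠ g in @nhds D (topD B (av T₀)) 1, V g = P g := by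
  classical
  letI := topD B (av T)
  haveI : IsTopologicalDivisionRing D := inst_D B T
  haveI : ContinuousStar D := inst_star B T (star_smul_k hS)
  have : NeZero n := ⟨hn.ne'⟩
  have _ : Fintype {φ : k →+* ℝ // φ d < 0} := Fintype.ofFinite _
  have ha := av_nonarch hT
  obtain ⟨R, hR⟩ := exists_family (D := D) hS hn hdeg
  obtain ⟨s₁, hs₁, hdeg₁⟩ := exists_sym hS hn hdeg
  refine H518.Real.real_ext (K := K) (Hf := HT B (av T)) (O := OT K B ha)
    (F := (Algebra.adjoin K {s₁} : Set D)) (τ := fun φ => (R φ).s) (J := fun φ => (R φ).f)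
    (fun ε hε hε1 => con hS hdeg B hR hT hdeg₁ hε hε1)
    (fun ε hε hε1 => ?_) (fun ε ε' h => HT_mono B h) (fun U => ?_) (fun U => ?_)
    (adjoin_comm s₁) (adjoin_star hS.star_smul hs₁) hc h1 h2
  · obtain ⟨ε₂, h3, h4, h5⟩ := exists_two (D := D) hR B hT hε hε1
    exact ⟨ε₂, h3, h4, h5 ε₂ le_rfl⟩
  · exact mem_nhds_iff_pn B (av T)
  · rw [mem_nhds_iff_real hS hn hdeg B hR hT₀]
    constructor
    · rintro ⟨ε, h3, _, δ, h4, h5⟩
      exact ⟨ε, h3, δ, h4, h5⟩
    · rintro ⟨ε, h3, δ, h4, h5⟩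
      exact ⟨min ε 1, lt_min h3 one_pos, min_le_right _ _, δ, h4, fun x hx hx' =>
        h5 x (HT_mono B (min_le_left _ _) hx) hx'⟩

end Vale.Agent.P011.H263
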