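import Vale.Agent.P011.H263.RealT

/-!
**The real places: the filters.**  The neighbourhoods of one for a finite set `T` of finite places
together with the real places which do not split, in the letters of the real data.
-/

open NumberField IsDedekindDomain Module Matrix Filter Topology

set_option linter.style.haveILetI false
set_option linter.unusedSectionVars false

namespace Vale.Agent.P011.H263

open Vale.Agent.P011.H775.Top
open Vale.Agent.P011.Arith Vale.Agent.P011.Even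
open Vale.Agent.P011.RP (RData)
open Vale.Agent.P011.H518.Real (Pn)

/-- More places give a finer topology. -/
theorem nhds_mono {k D : Type} [Field k] [NumberField k] [DivisionRing D] [Algebra k D] {N : ℕ}
    (B : Basis (Fin N) k D) {T T' : Finset (Pl k)} [Nonempty T] [Nonempty T'] (h : T ⊆ T')
    (x : D) : @nhds D (topD B (av T')) x ≤ @nhds D (topD B (av T)) x := by
  intro U hU
  obtain ⟨ε, hε, hU⟩ := (mem_nhds_iff_nm B T).mp hU
  exact (mem_nhds_iff_nm B T').mpr ⟨ε, hε, fun y hy => hU y fun p hp => hy p (h hp)⟩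

variable {k K D : Type} [Field k] [NumberField k] [Field K] [StarRing K]
  [DivisionRing D] [StarRing D] [Algebra k K] [Algebra k D] [Algebra K D] [IsScalarTower k K D]
  {d : kˣ} {s : K} {n N : ℕ}

theorem nm_inr_eq (B : Basis (Fin N) k D) (φ : k →+* ℝ) (x : D) :
    nm B (Sum.inr φ) x = ∑ i, |rc B φ x i| := rfl

/-- Small matrices come from small coordinates. -/
theorem nm_of_real (hS : Setting k K D d s) (B : Basis (Fin N) k D) (hn : 0 < n)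
    (hdeg : finrank K D = n ^ 2) {φ : k →+* ℝ} (hφ : φ d < 0) (R : RData K D n)
    (hR : ∀ x : k, R.s (algebraMap k K x) = ((φ x : ℝ) : ℂ)) {ε : ℝ} (hε : 0 < ε) :
    ∃ δ : ℝ, 0 < δ ∧ ∀ x : D, (∀ a b, ‖R.f x a b‖ < δ) → nm B (Sum.inr φ) x < ε := by
  let Λ := LinearEquiv.ofBijective (Lam B R) (Lam_bij hS B hn hdeg hφ R hR)
  have h2 : Continuous Λ.symm := LinearMap.continuous_of_finiteDimensional Λ.symm.toLinearMap
  let F : (Fin n → Fin n → ℂ) → Fin N → ℝ := fun X => Λ.symm (Matrix.of X)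
  have hF : Continuous F := h2.comp continuous_id
  have hF0 : F 0 = 0 := map_zero Λ.symm
  have hN : (0 : ℝ) < N + 1 := by positivity
  have h3 : F ⁻¹' Metric.ball 0 (ε / (N + 1)) ∈ 𝓝 (0 : Fin n → Fin n → ℂ) :=
    hF.continuousAt.preimage_mem_nhds (by rw [hF0]; exact Metric.ball_mem_nhds _ (by positivity))
  obtain ⟨δ, hδ, hball⟩ := Metric.mem_nhds_iff.mp h3
  refine ⟨δ, hδ, fun x hx => ?_⟩
  have h4 : (fun a b => R.f x a b) ∈ Metric.ball (0 : Fin n → Fin n → ℂ) δ := by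
    rw [Metric.mem_ball, dist_pi_lt_iff hδ]
    intro a
    rw [dist_pi_lt_iff hδ]
    intro b
    rw [dist_eq_norm, Pi.zero_apply, Pi.zero_apply, sub_zero]
    exact hx a b
  have h5 : F (fun a b => R.f x a b) = rc B φ x := by
    apply Λ.injective
    change Λ (Λ.symm (Matrix.of fun a b => R.f x a b)) = Lam B R (rc B φ x)
    rw [LinearEquiv.apply_symm_apply, Lam_rc B R hR]
    rfl
  have h6 := hball h4
  rw [Set.mem_preimage, h5, Metric.mem_ball, dist_pi_lt_iff (by positivity)] at h6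
  rw [nm_inr_eq]
  have h7 : ∀ i ∈ (Finset.univ : Finset (Fin N)), |rc B φ x i| ≤ ε / (N + 1) := fun i _ => by
    have := (h6 i).le
    rwa [Pi.zero_apply, Real.dist_eq, sub_zero] at this
  refine (Finset.sum_le_sum h7).trans_lt ?_
  rw [Finset.sum_const, Finset.card_univ, Fintype.card_fin, nsmul_eq_mul, mul_div_assoc',
    div_lt_iff₀ hN]
  nlinarith

/-- Small coordinates give small matrices. -/
theorem real_of_nm (B : Basis (Fin N) k D) {φ : k →+* ℝ} (R : RData K D n)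
    (hR : ∀ x : k, R.s (algebraMap k K x) = ((φ x : ℝ) : ℂ)) {δ : ℝ} (hδ : 0 < δ) :
    ∃ ε : ℝ, 0 < ε ∧ ∀ x : D, nm B (Sum.inr φ) x < ε → ∀ a b, ‖R.f x a b‖ < δ := by
  have h2 : Continuous (Lam B R) := LinearMap.continuous_of_finiteDimensional (Lam B R)
  let F : (Fin N → ℝ) → Fin n → Fin n → ℂ := fun c => Lam B R c
  have hF : Continuous F := h2
  have hF0 : F 0 = 0 := map_zero (Lam B R)
  have h3 : F ⁻¹' Metric.ball 0 δ ∈ 𝓝 (0 : Fin N → ℝ) :=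
    hF.continuousAt.preimage_mem_nhds (by rw [hF0]; exact Metric.ball_mem_nhds _ hδ)
  obtain ⟨ε, hε, hball⟩ := Metric.mem_nhds_iff.mp h3
  refine ⟨ε, hε, fun x hx a b => ?_⟩
  have h4 : rc B φ x ∈ Metric.ball (0 : Fin N → ℝ) ε := by
    rw [Metric.mem_ball, dist_pi_lt_iff hε]
    intro i
    rw [Pi.zero_apply, Real.dist_eq, sub_zero]
    rw [nm_inr_eq] at hx
    exact (Finset.single_le_sum (f := fun i => |rc B φ x i|) (fun _ _ => abs_nonneg _)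
      (Finset.mem_univ i)).trans_lt hx
  have h5 := hball h4
  rw [Set.mem_preimage, Metric.mem_ball, dist_pi_lt_iff hδ] at h5
  have h6 := h5 a
  rw [dist_pi_lt_iff hδ] at h6
  have h7 := h6 b
  rw [dist_eq_norm, Pi.zero_apply, Pi.zero_apply, sub_zero] at h7
  change ‖Lam B R (rc B φ x) a b‖ < δ at h7
  rwa [Lam_rc B R hR] at h7

/-- A finite set of positive radii has a positive lower bound. -/
theorem exists_low {J : Type} [Finite J] (δ : J → ℝ) (hδ : ∀ j, 0 < δ j) :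
    ∃ δ₀ : ℝ, 0 < δ₀ ∧ ∀ j, δ₀ ≤ δ j := by
  by_cases hJ : Nonempty J
  · obtain ⟨j0, hj0⟩ := Finite.exists_min δ
    exact ⟨δ j0, hδ j0, hj0⟩
  · exact ⟨1, one_pos, fun j => absurd ⟨j⟩ hJ⟩

/-- **The neighbourhoods of one**, at the places of `T` and the real places which do not split. -/
theorem mem_nhds_iff_real (hS : Setting k K D d s) (hn : 0 < n) (hdeg : finrank K D = n ^ 2)
    (B : Basis (Fin N) k D) {R : {φ : k →+* ℝ // φ d < 0} → RData K D n}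
    (hR : ∀ φ a, (R φ).s (algebraMap k K a) = (((φ : k →+* ℝ) a : ℝ) : ℂ))
    {T T₀ : Finset (Pl k)} [Nonempty T] [Nonempty T₀]
    (hT₀ : ∀ p, p ∈ T₀ ↔ p ∈ T ∨ ∃ φ : k →+* ℝ, φ d < 0 ∧ p = Sum.inr φ) {U : Set D} :
    U ∈ @nhds D (topD B (av T₀)) 1 ↔ ∃ ε : ℝ, 0 < ε ∧ ε ≤ 1 ∧ ∃ δ : ℝ, 0 < δ ∧
      ∀ x ∈ HT B (av T) ε, Pn (fun φ => (R φ).f) δ x → x ∈ U := by
  rw [mem_nhds_iff_nm B T₀]
  constructor
  · rintro ⟨ε₀, hε₀, hU⟩
    obtain ⟨ε, hε, hε1, hεU⟩ := exists_HT B (ball_mem B T (x₀ := (1 : D)) hε₀)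
    choose δ hδ hδx using fun φ : {φ : k →+* ℝ // φ d < 0} =>
      nm_of_real hS B hn hdeg φ.2 (R φ) (hR φ) hε₀
    obtain ⟨δ₀, hδ₀, hle⟩ := exists_low δ hδ
    refine ⟨ε, hε, hε1, δ₀, hδ₀, fun x hx hxp => hU x fun p hp => ?_⟩
    rcases (hT₀ p).mp hp with h | ⟨φ, hφ, rfl⟩
    · exact hεU hx p h
    · refine hδx ⟨φ, hφ⟩ (x - 1) fun a b => ?_
      rw [map_sub, map_one]
      exact (hxp ⟨φ, hφ⟩ a b).trans_le (hle _)
  · rintro ⟨ε, hε, _, δ, hδ, hU⟩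
    obtain ⟨ε₁, hε₁, h1⟩ := (mem_nhds_iff_nm B T).mp (HT_mem B (a := av T) hε)
    choose ε₂ hε₂ h2 using fun φ : {φ : k →+* ℝ // φ d < 0} => real_of_nm B (R φ) (hR φ) hδ
    obtain ⟨ε₃, hε₃, hle⟩ := exists_low ε₂ hε₂
    refine ⟨min ε₁ ε₃, lt_min hε₁ hε₃, fun x hx => hU x (h1 x fun p hp => ?_) fun φ a b => ?_⟩
    · exact (hx p ((hT₀ p).mpr (Or.inl hp))).trans_le (min_le_left _ _)
    · have h3 := h2 φ (x - 1) ((hx _ ((hT₀ _).mpr (Or.inr ⟨φ, φ.2, rfl⟩))).trans_le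
        ((min_le_right _ _).trans (hle φ))) a b
      rwa [map_sub, map_one] at h3

theorem eventually_iff_real (hS : Setting k K D d s) (hn : 0 < n) (hdeg : finrank K D = n ^ 2)
    (B : Basis (Fin N) k D) {R : {φ : k →+* ℝ // φ d < 0} → RData K D n}
    (hR : ∀ φ a, (R φ).s (algebraMap k K a) = (((φ : k →+* ℝ) a : ℝ) : ℂ))
    {T T₀ : Finset (Pl k)} [Nonempty T] [Nonempty T₀]
    (hT₀ : ∀ p, p ∈ T₀ ↔ p ∈ T ∨ ∃ φ : k →+* ℝ, φ d < 0 ∧ p = Sum.inr φ) {Q : D → Prop} :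
    (∀ᶠ x in @nhds D (topD B (av T₀)) 1, Q x) ↔ ∃ ε : ℝ, 0 < ε ∧ ε ≤ 1 ∧ ∃ δ : ℝ, 0 < δ ∧
      ∀ x ∈ HT B (av T) ε, Pn (fun φ => (R φ).f) δ x → Q x :=
  mem_nhds_iff_real hS hn hdeg B hR hT₀ (U := {x | Q x})

/-- The same for pairs. -/
theorem eventually_pair_real (hS : Setting k K D d s) (hn : 0 < n) (hdeg : finrank K D = n ^ 2)
    (B : Basis (Fin N) k D) {R : {φ : k →+* ℝ // φ d < 0} → RData K D n}
    (hR : ∀ φ a, (R φ).s (algebraMap k K a) = (((φ : k →+* ℝ) a : ℝ) : ℂ))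
    {T T₀ : Finset (Pl k)} [Nonempty T] [Nonempty T₀]
    (hT₀ : ∀ p, p ∈ T₀ ↔ p ∈ T ∨ ∃ φ : k →+* ℝ, φ d < 0 ∧ p = Sum.inr φ) {Q : D → D → Prop} :
    (∀ᶠ p in @nhds D (topD B (av T₀)) 1 ×ˢ @nhds D (topD B (av T₀)) 1, Q p.1 p.2) ↔
      ∃ ε : ℝ, 0 < ε ∧ ε ≤ 1 ∧ ∃ δ : ℝ, 0 < δ ∧ ∀ x ∈ HT B (av T) ε, ∀ y ∈ HT B (av T) ε,
        Pn (fun φ => (R φ).f) δ x → Pn (fun φ => (R φ).f) δ y → Q x y := by
  rw [Filter.Eventually, Filter.mem_prod_same_iff]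
  constructor
  · rintro ⟨U, hU, hUs⟩
    obtain ⟨ε, hε, hε1, δ, hδ, h⟩ := (mem_nhds_iff_real hS hn hdeg B hR hT₀).mp hU
    exact ⟨ε, hε, hε1, δ, hδ, fun x hx y hy hx' hy' =>
      hUs (Set.mk_mem_prod (h x hx hx') (h y hy hy'))⟩
  · rintro ⟨ε, hε, hε1, δ, hδ, h⟩
    refine ⟨{x | x ∈ HT B (av T) ε ∧ Pn (fun φ => (R φ).f) δ x},
      (mem_nhds_iff_real hS hn hdeg B hR hT₀).mpr ⟨ε, hε, hε1, δ, hδ, fun x hx hx' => ⟨hx, hx'⟩⟩,
      ?_⟩
    rintro ⟨x, y⟩ ⟨hx, hy⟩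
    exact h x hx.1 y hy.1 hx.2 hy.2

/-- **The set of places**: the places of `T` and the real places which do not split. -/
noncomputable def T0 (d : kˣ) (T : Finset (Pl k)) : Finset (Pl k) := by
  classical
  exact T ∪ (Set.toFinite (Set.range fun φ : {φ : k →+* ℝ // φ d < 0} =>
    (Sum.inr (φ : k →+* ℝ) : Pl k))).toFinset

theorem mem_T0 {d : kˣ} {T : Finset (Pl k)} (p : Pl k) :
    p ∈ T0 d T ↔ p ∈ T ∨ ∃ φ : k →+* ℝ, φ d < 0 ∧ p = Sum.inr φ := by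
  classical
  rw [T0, Finset.mem_union, Set.Finite.mem_toFinset]
  constructor
  · rintro (h | ⟨φ, rfl⟩)
    · exact Or.inl h
    · exact Or.inr ⟨φ, φ.2, rfl⟩
  · rintro (h | ⟨φ, h1, rfl⟩)
    · exact Or.inl h
    · exact Or.inr ⟨⟨φ, h1⟩, rfl⟩

theorem subset_T0 (d : kˣ) (T : Finset (Pl k)) : T ⊆ T0 d T := fun p hp =>
  (mem_T0 p).mpr (Or.inl hp)

instance {d : kˣ} {T : Finset (Pl k)} [h : Nonempty T] : Nonempty (T0 d T) :=
  ⟨⟨h.some.1, subset_T0 d T h.some.2⟩⟩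

end Vale.Agent.P011.H263
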