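import Vale.Agent.P011.Even.RealSide
import Vale.Agent.P011.Even.RealLoc
import Vale.Agent.P011.Even.GNorm
import Vale.Agent.P011.Arith.SUnit
import Vale.Agent.P011.RP.Dense

/-!
**Density of a division algebra with involution in the product of its completions at the real
places of `k` which do not split in `K`, with conditions at finitely many finite places.**
-/

open NumberField IsDedekindDomain Module Matrix Filter Topology

set_option linter.unusedSectionVars false

namespace Vale.Agent.P011.H263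

open Vale.Agent.P011.Arith Vale.Agent.P011.Even
open Vale.Agent.P011.RP (RData)

/-- Weak approximation with real targets at the real places. -/
theorem approx_real {F : Type} [Field F] [NumberField F] (T : Set (Pl F)) (hT : T.Finite)
    (z : HeightOneSpectrum (𝓞 F) → F) (δ : HeightOneSpectrum (𝓞 F) → ℝ) (hδ : ∀ p, 0 < δ p)
    (r : (F →+* ℝ) → ℝ) {ε : ℝ} (hε : 0 < ε) :
    ∃ f : F, (∀ v, (Sum.inl v : Pl F) ∈ T → plAbv (Sum.inl v) (f - z v) < δ v) ∧
      ∀ φ : F →+* ℝ, |φ f - r φ| < ε := by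
  classical
  choose q hq1 hq2 using fun φ : F →+* ℝ =>
    exists_rat_btwn (show r φ - ε / 2 < r φ + ε / 2 by linarith)
  obtain ⟨a, ha⟩ := approx (F := F) (T ∪ Set.range Sum.inr) (hT.union (Set.finite_range _))
    (fun p => Sum.elim (fun v => z v) (fun φ => ((q φ : ℚ) : F)) p)
    (fun p => Sum.elim (fun v => δ v) (fun _ => ε / 2) p) (by
      rintro (v | φ)
      · exact hδ v
      · exact half_pos hε)
  refine ⟨a, fun v hv => ?_, fun φ => ?_⟩
  · exact ha (Sum.inl v) (Or.inl hv)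
  · have h1 := ha (Sum.inr φ) (Or.inr ⟨φ, rfl⟩)
    rw [plAbv_inr, Sum.elim_inr, Sum.elim_inr, map_sub, map_ratCast] at h1
    have h2 := hq1 φ
    have h3 := hq2 φ
    rw [abs_lt] at h1 ⊢
    constructor <;> linarith [h1.1, h1.2]

variable {k K D : Type} [Field k] [NumberField k] [Field K] [StarRing K]
  [DivisionRing D] [StarRing D] [Algebra k K] [Algebra k D] [Algebra K D] [IsScalarTower k K D]
  {d : kˣ} {s : K} {n N : ℕ}

/-- The image of `s` is purely imaginary. -/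
theorem s_eq (hS : Setting k K D d s) (R : RData K D n) :
    R.s s = ((R.s s).im : ℂ) * Complex.I ∧ (R.s s).im ≠ 0 := by
  have hre : (R.s s).re = 0 := by
    have h2 := R.hs s
    rw [hS.star_s, map_neg] at h2
    have h3 := congrArg Complex.re h2
    simp only [Complex.neg_re, Complex.star_def, Complex.conj_re] at h3
    linarith
  have h1 : R.s s = ((R.s s).im : ℂ) * Complex.I := by
    apply Complex.ext
    · simp [hre]
    · simp
  refine ⟨h1, fun h => ?_⟩
  rw [h, Complex.ofReal_zero, zero_mul] at h1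
  have h2 : s = 0 := (_root_.map_eq_zero R.s).mp h1
  have h3 := hS.sq
  rw [h2, zero_pow two_ne_zero] at h3
  exact (_root_.map_ne_zero (algebraMap k K)).mpr d.ne_zero h3.symm

/-- The data at all the real places which do not split. -/
theorem exists_family (hS : Setting k K D d s) (hn : 0 < n) (hdeg : finrank K D = n ^ 2) :
    ∃ R : {φ : k →+* ℝ // φ d < 0} → RData K D n,
      ∀ φ a, (R φ).s (algebraMap k K a) = (((φ : k →+* ℝ) a : ℝ) : ℂ) := by
  have := numberField_of_setting hS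
  choose R hR using fun φ : {φ : k →+* ℝ // φ d < 0} =>
    exists_rdata_of (D := D) (n := n) hS hn hdeg φ.2
  exact ⟨R, hR⟩

theorem f_algebraMap (R : RData K D n) (c : K) (x : D) :
    R.f (algebraMap K D c * x) = R.s c • R.f x := by
  rw [map_mul, R.hf, Matrix.scalar_apply, Matrix.smul_eq_diagonal_mul]

/-- **The images of a basis of `D` over `k` span the matrices over the real numbers.** -/
theorem exists_real (hS : Setting k K D d s) (hn : 0 < n) (hdeg : finrank K D = n ^ 2)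
    (B : Basis (Fin N) k D) (R : RData K D n) {φ : k →+* ℝ}
    (hφ : ∀ a, R.s (algebraMap k K a) = ((φ a : ℝ) : ℂ)) (X : Matrix (Fin n) (Fin n) ℂ) :
    ∃ c : Fin N → ℝ, ∑ i, c i • R.f (B i) = X := by
  have := numberField_of_setting hS
  have := hS.fin
  have := hS.cen
  have : StarModule K D := ⟨hS.star_smul⟩
  obtain ⟨V, hV⟩ : ∃ V : Submodule ℝ (Matrix (Fin n) (Fin n) ℂ),
      V = Submodule.span ℝ (Set.range fun i => R.f (B i)) := ⟨_, rfl⟩
  have h1 : ∀ x : D, R.f x ∈ V := by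
    intro x
    rw [← B.sum_repr x, map_sum]
    refine V.sum_mem fun i _ => ?_
    rw [f_smul R hφ]
    refine V.smul_mem _ ?_
    rw [hV]
    exact Submodule.subset_span ⟨i, rfl⟩
  obtain ⟨hs1, hs2⟩ := s_eq hS R
  obtain ⟨τ, hτ⟩ : ∃ τ : ℝ, τ = (R.s s).im := ⟨_, rfl⟩
  rw [← hτ] at hs1 hs2
  have h2 : ∀ (c : ℂ) (x : D), c • R.f x ∈ V := by
    intro c x
    have h3 : c • R.f x = c.re • R.f x + (c.im / τ) • R.f (algebraMap K D s * x) := by
      rw [f_algebraMap, hs1]
      ext a b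
      simp only [Matrix.smul_apply, Matrix.add_apply, smul_eq_mul, Complex.real_smul]
      have h4 : ((c.im / τ : ℝ) : ℂ) * ((τ : ℂ) * Complex.I) = (c.im : ℂ) * Complex.I := by
        rw [Complex.ofReal_div, ← mul_assoc, div_mul_cancel₀]
        exact_mod_cast hs2
      rw [← mul_assoc, h4, ← add_mul, Complex.re_add_im]
    rw [h3]
    exact V.add_mem (V.smul_mem _ (h1 _)) (V.smul_mem _ (h1 _))
  obtain ⟨γ, hγ⟩ := R.split_basis hdeg hn X
  have h3 : X ∈ V := by
    rw [hγ]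
    exact V.sum_mem fun j _ => h2 _ _
  rw [hV, Submodule.mem_span_range_iff_exists_fun] at h3
  exact h3

/-- **Weak approximation in `D`**: arbitrary matrices at the real places which do not split, and
elements of `D` at finitely many finite places. -/
theorem dense_near (hS : Setting k K D d s) (hn : 0 < n) (hdeg : finrank K D = n ^ 2)
    (B : Basis (Fin N) k D) {R : {φ : k →+* ℝ // φ d < 0} → RData K D n}
    (hR : ∀ φ a, (R φ).s (algebraMap k K a) = (((φ : k →+* ℝ) a : ℝ) : ℂ))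
    (T : Set (Pl k)) (hT : T.Finite) (z : HeightOneSpectrum (𝓞 k) → D)
    (δ : HeightOneSpectrum (𝓞 k) → ℝ) (hδ : ∀ v, 0 < δ v)
    {X : {φ : k →+* ℝ // φ d < 0} → Matrix (Fin n) (Fin n) ℂ}
    {O : Set ({φ : k →+* ℝ // φ d < 0} → Matrix (Fin n) (Fin n) ℂ)} (hO : O ∈ 𝓝 X) :
    ∃ x : D, (∀ v, (Sum.inl v : Pl k) ∈ T → nm B (Sum.inl v) (x - z v) < δ v) ∧
      (fun φ => (R φ).f x) ∈ O := by
  classical
  have _ : Fintype (k →+* ℝ) := Fintype.ofFinite _
  have _ : Fintype {φ : k →+* ℝ // φ d < 0} := Fintype.ofFinite _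
  choose c hc using fun φ : {φ : k →+* ℝ // φ d < 0} =>
    exists_real hS hn hdeg B (R φ) (hR φ) (X φ)
  let g : (Fin N → (k →+* ℝ) → ℝ) → {φ : k →+* ℝ // φ d < 0} → Matrix (Fin n) (Fin n) ℂ :=
    fun r φ => ∑ i, r i φ • (R φ).f (B i)
  let c' : Fin N → (k →+* ℝ) → ℝ := fun i ψ => if h : ψ d < 0 then c ⟨ψ, h⟩ i else 0
  have hgc : g c' = X := by
    funext φ
    rw [← hc φ]
    refine Finset.sum_congr rfl fun i _ => ?_
    change (if h : (φ : k →+* ℝ) d < 0 then c ⟨φ, h⟩ i else 0) • _ = _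
    rw [dif_pos φ.2]
  have hg : Continuous g := by
    refine continuous_pi fun φ => ?_
    refine continuous_finsetSum _ fun i _ => ?_
    exact (continuous_apply_apply i (φ : k →+* ℝ)).smul continuous_const
  have h1 : g ⁻¹' O ∈ 𝓝 c' := hg.continuousAt.preimage_mem_nhds (by rw [hgc]; exact hO)
  obtain ⟨ε, hε, hball⟩ := Metric.mem_nhds_iff.mp h1
  choose f hf1 hf2 using fun i : Fin N => approx_real T hT (fun v => B.repr (z v) i)
    (fun v => δ v / (N + 1)) (fun v => by have := hδ v; positivity) (c' i) hε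
  refine ⟨∑ i, f i • B i, fun v hv => ?_, ?_⟩
  · have h2 : ∀ i, B.repr (∑ i, f i • B i - z v) i = f i - B.repr (z v) i := by
      intro i
      rw [map_sub, Finsupp.sub_apply, B.repr_sum_self]
    rw [Even.nm]
    have h3 : ∀ i ∈ (Finset.univ : Finset (Fin N)),
        plAbv (Sum.inl v) (B.repr (∑ i, f i • B i - z v) i) ≤ δ v / (N + 1) := by
      intro i _
      rw [h2]
      exact (hf1 i v hv).le
    refine (Finset.sum_le_sum h3).trans_lt ?_
    rw [Finset.sum_const, Finset.card_univ, Fintype.card_fin, nsmul_eq_mul]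
    have h4 := hδ v
    rw [mul_div_assoc', div_lt_iff₀ (by positivity)]
    nlinarith
  · have h5 : (fun i (ψ : k →+* ℝ) => ψ (f i)) ∈ Metric.ball c' ε := by
      rw [Metric.mem_ball, dist_pi_lt_iff hε]
      intro i
      rw [dist_pi_lt_iff hε]
      intro ψ
      rw [Real.dist_eq]
      exact hf2 i ψ
    have h6 := hball h5
    have h7 : g (fun i (ψ : k →+* ℝ) => ψ (f i)) = fun φ => (R φ).f (∑ i, f i • B i) := by
      funext φ
      rw [map_sum]
      refine Finset.sum_congr rfl fun i _ => ?_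
      rw [f_smul (R φ) (hR φ)]
    rw [← h7]
    exact h6

/-- Weak approximation in `K`: arbitrary complex numbers at the real places which do not split,
an element of `k` at finitely many finite places. -/
theorem approx_K (hS : Setting k K D d s) {R : {φ : k →+* ℝ // φ d < 0} → RData K D n}
    (hR : ∀ φ a, (R φ).s (algebraMap k K a) = (((φ : k →+* ℝ) a : ℝ) : ℂ))
    (T : Set (Pl k)) (hT : T.Finite) (z : k)
    (δ : HeightOneSpectrum (𝓞 k) → ℝ) (hδ : ∀ v, 0 < δ v)
    (γ : {φ : k →+* ℝ // φ d < 0} → ℂ) {ε : ℝ} (hε : 0 < ε) :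
    ∃ a b : k, (∀ v, (Sum.inl v : Pl k) ∈ T → plAbv (Sum.inl v) (a - z) < δ v ∧
        plAbv (Sum.inl v) b < δ v) ∧
      ∀ φ, ‖(R φ).s (algebraMap k K a + algebraMap k K b * s) - γ φ‖ < ε := by
  classical
  have _ : Fintype {φ : k →+* ℝ // φ d < 0} := Fintype.ofFinite _
  obtain ⟨M, hM0, hM⟩ : ∃ M : ℝ, 0 < M ∧ ∀ φ, |((R φ).s s).im| ≤ M := by
    refine ⟨∑ φ, |((R φ).s s).im| + 1, ?_, fun φ => ?_⟩
    · have := Finset.sum_nonneg fun (φ : {φ : k →+* ℝ // φ d < 0}) (_ : φ ∈ Finset.univ) =>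
        abs_nonneg ((R φ).s s).im
      linarith
    · have := Finset.single_le_sum (f := fun φ : {φ : k →+* ℝ // φ d < 0} => |((R φ).s s).im|)
        (fun φ _ => abs_nonneg _) (Finset.mem_univ φ)
      linarith
  obtain ⟨a, ha1, ha2⟩ := approx_real T hT (fun _ => z) δ hδ
    (fun ψ => if h : ψ d < 0 then (γ ⟨ψ, h⟩).re else 0) (half_pos hε)
  obtain ⟨b, hb1, hb2⟩ := approx_real T hT (fun _ => 0) δ hδ
    (fun ψ => if h : ψ d < 0 then (γ ⟨ψ, h⟩).im / ((R ⟨ψ, h⟩).s s).im else 0)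
    (show 0 < ε / 2 / M by positivity)
  refine ⟨a, b, fun v hv => ⟨ha1 v hv, ?_⟩, fun φ => ?_⟩
  · have := hb1 v hv
    rwa [sub_zero] at this
  · obtain ⟨h1, h2⟩ := s_eq hS (R φ)
    have h3 := ha2 φ
    have h4 := hb2 φ
    simp only [dif_pos φ.2] at h3 h4
    obtain ⟨τ, hτ⟩ : ∃ τ : ℝ, τ = ((R φ).s s).im := ⟨_, rfl⟩
    have hM' := hM φ
    rw [← hτ] at h1 h2 h4 hM'
    have e : (R φ).s (algebraMap k K a + algebraMap k K b * s) - γ φ =
        (((φ : k →+* ℝ) a - (γ φ).re : ℝ) : ℂ) +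
          ((((φ : k →+* ℝ) b - (γ φ).im / τ) * τ : ℝ) : ℂ) * Complex.I := by
      rw [map_add, map_mul, hR, hR, h1]
      have h5 : (((φ : k →+* ℝ) b - (γ φ).im / τ) * τ : ℝ) = (φ : k →+* ℝ) b * τ - (γ φ).im := by
        rw [sub_mul, div_mul_cancel₀ _ h2]
      rw [h5]
      conv_lhs => rw [← Complex.re_add_im (γ φ)]
      push_cast
      ring
    rw [e]
    refine (norm_add_le _ _).trans_lt ?_
    rw [norm_mul, Complex.norm_I, mul_one, Complex.norm_real, Complex.norm_real,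
      Real.norm_eq_abs, Real.norm_eq_abs, abs_mul]
    have h6 : |(φ : k →+* ℝ) b - (γ φ).im / τ| * |τ| ≤ ε / 2 := by
      calc |(φ : k →+* ℝ) b - (γ φ).im / τ| * |τ| ≤ (ε / 2 / M) * M :=
            mul_le_mul h4.le hM' (abs_nonneg _) (by positivity)
        _ = ε / 2 := by field_simp
    linarith

/-- **Density in a commutative subring**: the real closure of `K(s₁)` contains the complex
polynomials in `s₁`, with elements of `K(s₁)` close to one at finitely many finite places. -/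
theorem dense_poly (hS : Setting k K D d s) {R : {φ : k →+* ℝ // φ d < 0} → RData K D n}
    (hR : ∀ φ a, (R φ).s (algebraMap k K a) = (((φ : k →+* ℝ) a : ℝ) : ℂ))
    (B : Basis (Fin N) k D) (T : Set (Pl k)) (hT : T.Finite)
    (δ : HeightOneSpectrum (𝓞 k) → ℝ) (hδ : ∀ v, 0 < δ v) (s₁ : D) {m : ℕ} (hm : 0 < m)
    (γ : {φ : k →+* ℝ // φ d < 0} → Fin m → ℂ)
    {O : Set ({φ : k →+* ℝ // φ d < 0} → Matrix (Fin n) (Fin n) ℂ)}
    (hO : O ∈ 𝓝 (fun φ => ∑ j : Fin m, γ φ j • (R φ).f s₁ ^ (j : ℕ))) :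
    ∃ c : Fin m → K,
      (∀ v, (Sum.inl v : Pl k) ∈ T →
        nm B (Sum.inl v) (∑ j : Fin m, algebraMap K D (c j) * s₁ ^ (j : ℕ) - 1) < δ v) ∧
      (fun φ => (R φ).f (∑ j : Fin m, algebraMap K D (c j) * s₁ ^ (j : ℕ))) ∈ O := by
  classical
  have _ : Fintype {φ : k →+* ℝ // φ d < 0} := Fintype.ofFinite _
  let g : (Fin m → {φ : k →+* ℝ // φ d < 0} → ℂ) →
      {φ : k →+* ℝ // φ d < 0} → Matrix (Fin n) (Fin n) ℂ :=
    fun r φ => ∑ j, r j φ • (R φ).f s₁ ^ (j : ℕ)
  have hg : Continuous g := by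
    refine continuous_pi fun φ => ?_
    refine continuous_finsetSum _ fun j _ => ?_
    exact (continuous_apply_apply j φ).smul continuous_const
  have h1 : g ⁻¹' O ∈ 𝓝 (fun j φ => γ φ j) := hg.continuousAt.preimage_mem_nhds hO
  obtain ⟨ε, hε, hball⟩ := Metric.mem_nhds_iff.mp h1
  let Cv : HeightOneSpectrum (𝓞 k) → ℝ := fun v =>
    ∑ j : Fin m, (nm B (Sum.inl v) (s₁ ^ (j : ℕ)) +
      nm B (Sum.inl v) (algebraMap K D s * s₁ ^ (j : ℕ))) + 1
  have hCv : ∀ v, 0 < Cv v := fun v => by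
    have := Finset.sum_nonneg fun (j : Fin m) (_ : j ∈ Finset.univ) =>
      add_nonneg (nm_nonneg B (Sum.inl v) (s₁ ^ (j : ℕ)))
        (nm_nonneg B (Sum.inl v) (algebraMap K D s * s₁ ^ (j : ℕ)))
    change 0 < ∑ j : Fin m, (nm B (Sum.inl v) (s₁ ^ (j : ℕ)) +
      nm B (Sum.inl v) (algebraMap K D s * s₁ ^ (j : ℕ))) + 1
    linarith
  choose a b hab hc using fun j : Fin m => approx_K hS hR T hT (if (j : ℕ) = 0 then 1 else 0)
    (fun v => δ v / Cv v) (fun v => div_pos (hδ v) (hCv v)) (fun φ => γ φ j) hε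
  refine ⟨fun j => algebraMap k K (a j) + algebraMap k K (b j) * s, fun v hv => ?_, ?_⟩
  · have h2 : ∀ j : Fin m, algebraMap K D (algebraMap k K (a j) + algebraMap k K (b j) * s) *
        s₁ ^ (j : ℕ) = (a j - if (j : ℕ) = 0 then 1 else 0) • s₁ ^ (j : ℕ) +
          b j • (algebraMap K D s * s₁ ^ (j : ℕ)) +
            (if (j : ℕ) = 0 then (1 : k) else 0) • s₁ ^ (j : ℕ) := by
      intro j
      rw [map_add, map_mul, ← IsScalarTower.algebraMap_apply, ← IsScalarTower.algebraMap_apply,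
        add_mul, sub_smul, ← Algebra.smul_def, mul_assoc, ← Algebra.smul_def]
      abel
    have h3 : ∑ j : Fin m, (if (j : ℕ) = 0 then (1 : k) else 0) • s₁ ^ (j : ℕ) = 1 := by
      rw [Finset.sum_eq_single (⟨0, hm⟩ : Fin m)]
      · simp
      · intro j _ hj
        have : (j : ℕ) ≠ 0 := fun h => hj (Fin.ext h)
        rw [if_neg this, zero_smul]
      · intro h
        exact absurd (Finset.mem_univ _) h
    have h4 : ∑ j : Fin m, algebraMap K D (algebraMap k K (a j) + algebraMap k K (b j) * s) *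
        s₁ ^ (j : ℕ) - 1 = ∑ j : Fin m, ((a j - if (j : ℕ) = 0 then 1 else 0) • s₁ ^ (j : ℕ) +
          b j • (algebraMap K D s * s₁ ^ (j : ℕ))) := by
      rw [Finset.sum_congr rfl fun j _ => h2 j, Finset.sum_add_distrib, h3, add_sub_cancel_right]
    rw [h4]
    refine (nm_sum_le B _ _ _).trans_lt ?_
    have h5 : ∀ j ∈ (Finset.univ : Finset (Fin m)),
        nm B (Sum.inl v) ((a j - if (j : ℕ) = 0 then 1 else 0) • s₁ ^ (j : ℕ) +
          b j • (algebraMap K D s * s₁ ^ (j : ℕ))) ≤ (δ v / Cv v) *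
            (nm B (Sum.inl v) (s₁ ^ (j : ℕ)) +
              nm B (Sum.inl v) (algebraMap K D s * s₁ ^ (j : ℕ))) := by
      intro j _
      refine (nm_add_le B _ _ _).trans ?_
      rw [nm_smul, nm_smul, mul_add]
      exact add_le_add
        (mul_le_mul_of_nonneg_right (hab j v hv).1.le (nm_nonneg _ _ _))
        (mul_le_mul_of_nonneg_right (hab j v hv).2.le (nm_nonneg _ _ _))
    refine (Finset.sum_le_sum h5).trans_lt ?_
    rw [← Finset.mul_sum]
    calc (δ v / Cv v) * ∑ j : Fin m, (nm B (Sum.inl v) (s₁ ^ (j : ℕ)) +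
              nm B (Sum.inl v) (algebraMap K D s * s₁ ^ (j : ℕ))) < (δ v / Cv v) * Cv v :=
          mul_lt_mul_of_pos_left (lt_add_one _) (div_pos (hδ v) (hCv v))
      _ = δ v := div_mul_cancel₀ _ (hCv v).ne'
  · have h5 : (fun (j : Fin m) (φ : {φ : k →+* ℝ // φ d < 0}) =>
        (R φ).s (algebraMap k K (a j) + algebraMap k K (b j) * s)) ∈
          Metric.ball (fun j φ => γ φ j) ε := by
      rw [Metric.mem_ball, dist_pi_lt_iff hε]
      intro j
      rw [dist_pi_lt_iff hε]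
      intro φ
      rw [dist_eq_norm]
      exact hc j φ
    have h6 := hball h5
    have h7 : g (fun (j : Fin m) (φ : {φ : k →+* ℝ // φ d < 0}) =>
        (R φ).s (algebraMap k K (a j) + algebraMap k K (b j) * s)) =
          fun φ => (R φ).f (∑ j : Fin m,
            algebraMap K D (algebraMap k K (a j) + algebraMap k K (b j) * s) * s₁ ^ (j : ℕ)) := by
      funext φ
      rw [map_sum]
      refine Finset.sum_congr rfl fun j _ => ?_
      rw [f_algebraMap, map_pow]
    rw [← h7]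
    exact h6

/-- The absolute values `ν` are controlled by the coordinates at the finite places of `T`. -/
def Ctl {ι : Type} (B : Basis (Fin N) k D) (T : Set (Pl k)) (ν : ι → AbsoluteValue D ℝ) : Prop :=
  ∀ ε : ℝ, 0 < ε → ∃ δ : ℝ, 0 < δ ∧ ∀ x : D,
    (∀ v, (Sum.inl v : Pl k) ∈ T → nm B (Sum.inl v) x < δ) → ∀ i, ν i x < ε

theorem exists_seq_of {J : Type} [Finite J] {X : J → Matrix (Fin n) (Fin n) ℂ}
    {f : J → D → Matrix (Fin n) (Fin n) ℂ} {P : D → Prop}
    (h : ∀ O ∈ 𝓝 X, ∃ x : D, P x ∧ (fun j => f j x) ∈ O) :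
    ∃ x : ℕ → D, (∀ m, P (x m)) ∧ ∀ j, Tendsto (fun m => f j (x m)) atTop (𝓝 (X j)) := by
  have _ : Fintype J := Fintype.ofFinite _
  have _ : FirstCountableTopology (J → Matrix (Fin n) (Fin n) ℂ) :=
    inferInstanceAs (FirstCountableTopology (J → Fin n → Fin n → ℂ))
  obtain ⟨O, hO⟩ := (𝓝 X).exists_antitone_basis
  choose x hx1 hx2 using fun m => h (O m) (hO.1.mem_of_mem trivial)
  refine ⟨x, hx1, fun j => ?_⟩
  have h1 : Tendsto (fun m j => f j (x m)) atTop (𝓝 X) := hO.tendsto hx2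
  exact (tendsto_pi_nhds.mp h1) j

/-- **Density with the absolute values `ν`, in the form of sequences.** -/
theorem exists_seq (hS : Setting k K D d s) (hn : 0 < n) (hdeg : finrank K D = n ^ 2)
    (B : Basis (Fin N) k D) {R : {φ : k →+* ℝ // φ d < 0} → RData K D n}
    (hR : ∀ φ a, (R φ).s (algebraMap k K a) = (((φ : k →+* ℝ) a : ℝ) : ℂ))
    {T : Set (Pl k)} (hT : T.Finite) {ι : Type} {ν : ι → AbsoluteValue D ℝ} (hν : Ctl B T ν)
    (y : D) (X : {φ : k →+* ℝ // φ d < 0} → Matrix (Fin n) (Fin n) ℂ) {ε : ℝ} (hε : 0 < ε) :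
    ∃ x : ℕ → D, (∀ m i, ν i (x m - y) < ε) ∧
      ∀ φ, Tendsto (fun m => (R φ).f (x m)) atTop (𝓝 (X φ)) := by
  obtain ⟨δ, hδ, hδν⟩ := hν ε hε
  exact exists_seq_of (P := fun x => ∀ i, ν i (x - y) < ε) (f := fun φ => (R φ).f)
    fun O hO => by
      obtain ⟨x, hx1, hx2⟩ := dense_near hS hn hdeg B hR T hT (fun _ => y) (fun _ => δ)
        (fun _ => hδ) hO
      exact ⟨x, hδν _ hx1, hx2⟩

/-- **Density in the field generated by `s₁`**: every family of matrices which are polynomials in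
the image of `s₁` is a limit of elements of `K(s₁)` which are close to one for `ν`. -/
theorem exists_seq_adjoin (hS : Setting k K D d s)
    (B : Basis (Fin N) k D) {R : {φ : k →+* ℝ // φ d < 0} → RData K D n}
    (hR : ∀ φ a, (R φ).s (algebraMap k K a) = (((φ : k →+* ℝ) a : ℝ) : ℂ))
    {T : Set (Pl k)} (hT : T.Finite) {ι : Type} {ν : ι → AbsoluteValue D ℝ} (hν : Ctl B T ν)
    (s₁ : D) {m : ℕ} (hm : 0 < m) (X : {φ : k →+* ℝ // φ d < 0} → Matrix (Fin n) (Fin n) ℂ)
    (hX : ∀ φ, X φ ∈ Submodule.span ℂ (Set.range fun j : Fin m => (R φ).f s₁ ^ (j : ℕ)))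
    {ε : ℝ} (hε : 0 < ε) :
    ∃ x : ℕ → D, (∀ m, x m ∈ Algebra.adjoin K {s₁} ∧ ∀ i, ν i (x m - 1) < ε) ∧
      ∀ φ, Tendsto (fun m => (R φ).f (x m)) atTop (𝓝 (X φ)) := by
  obtain ⟨δ, hδ, hδν⟩ := hν ε hε
  have h1 : ∀ φ, ∃ γ : Fin m → ℂ, ∑ j : Fin m, γ j • (R φ).f s₁ ^ (j : ℕ) = X φ := fun φ => by
    have := hX φ
    rwa [Submodule.mem_span_range_iff_exists_fun] at this
  choose γ hγ using h1
  exact exists_seq_of (P := fun x => x ∈ Algebra.adjoin K {s₁} ∧ ∀ i, ν i (x - 1) < ε)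
    (f := fun φ => (R φ).f) fun O hO => by
      have hO' : O ∈ 𝓝 (fun φ => ∑ j : Fin m, γ φ j • (R φ).f s₁ ^ (j : ℕ)) := by
        rw [show (fun φ => ∑ j : Fin m, γ φ j • (R φ).f s₁ ^ (j : ℕ)) = X from funext hγ]
        exact hO
      obtain ⟨c, hc1, hc2⟩ := dense_poly hS hR B T hT (fun _ => δ) (fun _ => hδ) s₁ hm γ hO'
      refine ⟨_, ⟨?_, hδν _ hc1⟩, hc2⟩
      refine Subalgebra.sum_mem _ fun j _ => ?_
      exact Subalgebra.mul_mem _ (Subalgebra.algebraMap_mem _ _)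
        (Subalgebra.pow_mem _ (Algebra.self_mem_adjoin_singleton K s₁) _)

/-- An absolute value which is controlled at one place of `T`, and its composition with the
involution. -/
theorem ctl_of {ι : Type} [Finite ι] (B : Basis (Fin N) k D) {T : Set (Pl k)}
    {ν : ι → AbsoluteValue D ℝ}
    (h : ∀ i, ∃ v, (Sum.inl v : Pl k) ∈ T ∧ ∀ ε : ℝ, 0 < ε → ∃ δ : ℝ, 0 < δ ∧
      ∀ x : D, nm B (Sum.inl v) x < δ → ν i x < ε) : Ctl B T ν := by
  intro ε hε
  choose v hv hδ using h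
  choose δ hδ0 hδ1 using fun i => hδ i ε hε
  by_cases hne : Nonempty ι
  · obtain ⟨i0, hi0⟩ := Finite.exists_min δ
    exact ⟨δ i0, hδ0 i0, fun x hx i => hδ1 i x ((hx (v i) (hv i)).trans_le (hi0 i))⟩
  · exact ⟨1, one_pos, fun x hx i => absurd ⟨i⟩ hne⟩

end Vale.Agent.P011.H263
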