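import Vale.Agent.P011.H263.RealNF
import Vale.Agent.P011.H494.DiagC

/-!
**The real places: diagonalisation and density in the commutant of a maximal subfield.**
-/

open NumberField IsDedekindDomain Module Matrix Filter Topology

set_option linter.unusedSectionVars false

namespace Vale.Agent.P011.H263

open Vale.Agent.P011.Arith Vale.Agent.P011.Even Vale.Agent.P011.H494.DiagC
open Vale.Agent.P011.RP (RData)
open Polynomial (aeval)

/-- A sequence with nonzero limits can be replaced by one of nonzero elements. -/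
theorem shift_ne {D J : Type} [DivisionRing D] {n : ℕ}
    {f : J → D →+* Matrix (Fin n) (Fin n) ℂ} {x : ℕ → D} {X : J → Matrix (Fin n) (Fin n) ℂ}
    (hx : ∀ j, Tendsto (fun m => f j (x m)) atTop (𝓝 (X j))) (hX : ∀ j, X j ≠ 0)
    {P : D → Prop} (hP : ∀ m, P (x m)) (hP1 : Nonempty J ∨ P 1) :
    ∃ y : ℕ → D, (∀ m, y m ≠ 0 ∧ P (y m)) ∧
      ∀ j, Tendsto (fun m => f j (y m)) atTop (𝓝 (X j)) := by
  by_cases hJ : Nonempty J
  · obtain ⟨j0⟩ := hJ
    obtain ⟨M, hM⟩ := eventually_atTop.mp ((hx j0).eventually_ne (hX j0))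
    refine ⟨fun m => x (m + M), fun m => ⟨fun h => ?_, hP _⟩, fun j =>
      (hx j).comp (tendsto_add_atTop_nat M)⟩
    have h' : x (m + M) = 0 := h
    refine hM (m + M) (by omega) ?_
    rw [h', map_zero]
  · have h1 : P 1 := hP1.resolve_left hJ
    exact ⟨fun _ => 1, fun _ => ⟨one_ne_zero, h1⟩, fun j => absurd ⟨j⟩ hJ⟩

variable {k K D : Type} [Field k] [NumberField k] [Field K] [StarRing K]
  [DivisionRing D] [StarRing D] [Algebra k K] [Algebra k D] [Algebra K D] [IsScalarTower k K D]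
  {d : kˣ} {s : K} {n N : ℕ}

theorem f_aevalK (R : RData K D n) (h : D) (p : Polynomial K) :
    R.f (aeval h p) = aeval (R.f h) (p.map R.s) := by
  rw [Polynomial.aeval_def, Polynomial.aeval_def, Polynomial.hom_eval₂, Polynomial.eval₂_map]
  congr 1
  ext1 c
  rw [RingHom.comp_apply, RingHom.comp_apply, R.hf, Matrix.algebraMap_eq_diagonal]
  rfl

/-- The images of all elements are diagonalisable. -/
theorem sep_f (hS : Setting k K D d s) (R : RData K D n) (h : D) :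
    ((minpoly K h).map R.s).Separable ∧ aeval (R.f h) ((minpoly K h).map R.s) = 0 := by
  have := numberField_of_setting hS
  have := hS.fin
  have hint : IsIntegral K h := Algebra.IsIntegral.isIntegral h
  refine ⟨(minpoly.irreducible hint).separable.map, ?_⟩
  rw [← f_aevalK, minpoly.aeval, map_zero]

/-- The powers of the image of an element of maximal degree are linearly independent. -/
theorem indep_pow (hS : Setting k K D d s) (hn : 0 < n) (R : RData K D n) {s₁ : D}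
    (hs : (minpoly K s₁).natDegree = n) :
    LinearIndependent ℂ fun i : Fin n => R.f s₁ ^ (i : ℕ) := by
  have := hS.fin
  have := hS.cen
  let _ : Algebra K ℂ := R.s.toAlgebra
  let f' : D →ₐ[K] Matrix (Fin n) (Fin n) ℂ :=
    { R.f with
      commutes' := fun k => by
        change R.f (algebraMap K D k) = _
        rw [R.hf, Matrix.algebraMap_eq_diagonal]
        rfl }
  have h1 : LinearIndependent K fun i : Fin n => s₁ ^ (i : ℕ) := by
    have h := linearIndependent_pow (K := K) s₁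
    rw [hs] at h
    exact h
  have h2 := Vale.Agent.P011S.SF.split_indep hn f' _ h1
  have h3 : (fun i : Fin n => f' (s₁ ^ (i : ℕ))) = fun i : Fin n => R.f s₁ ^ (i : ℕ) := by
    funext i
    exact map_pow R.f s₁ i
  rw [h3] at h2
  exact h2

/-- The characteristic polynomial of the image of an element of maximal degree. -/
theorem charpoly_f (hS : Setting k K D d s) (hn : 0 < n) (R : RData K D n) {s₁ : D}
    (hs : (minpoly K s₁).natDegree = n) : (R.f s₁).charpoly = (minpoly K s₁).map R.s := by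
  have := hS.fin
  have hint : IsIntegral K s₁ := Algebra.IsIntegral.isIntegral s₁
  have h1 := indep_pow hS hn R hs
  rw [Fintype.linearIndependent_iff] at h1
  have hm : ((minpoly K s₁).map R.s).Monic := (minpoly.monic hint).map _
  have hd1 : (R.f s₁).charpoly.natDegree = n := by
    rw [Matrix.charpoly_natDegree_eq_dim, Fintype.card_fin]
  have hd2 : ((minpoly K s₁).map R.s).natDegree = n := by
    rw [Polynomial.natDegree_map, hs]
  obtain ⟨r, hr⟩ : ∃ r, r = (R.f s₁).charpoly - (minpoly K s₁).map R.s := ⟨_, rfl⟩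
  by_contra hne
  have hr0 : r ≠ 0 := by
    rw [hr]
    exact sub_ne_zero.mpr hne
  have hdeg1 : r.natDegree < n := by
    have h2 : r.degree < (R.f s₁).charpoly.degree := by
      rw [hr]
      refine Polynomial.degree_sub_lt_left ?_ (Matrix.charpoly_monic _).ne_zero ?_
      · rw [Polynomial.degree_eq_natDegree (Matrix.charpoly_monic _).ne_zero, hd1,
          Polynomial.degree_eq_natDegree hm.ne_zero, hd2]
      · rw [(Matrix.charpoly_monic _).leadingCoeff, hm.leadingCoeff]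
    rw [Polynomial.degree_eq_natDegree (Matrix.charpoly_monic _).ne_zero, hd1] at h2
    exact (Polynomial.natDegree_lt_iff_degree_lt hr0).mpr h2
  have h3 : aeval (R.f s₁) r = 0 := by
    rw [hr, map_sub, Matrix.aeval_self_charpoly, (sep_f hS R s₁).2, sub_zero]
  rw [Polynomial.aeval_eq_sum_range' hdeg1, Finset.sum_range] at h3
  have h4 := h1 (fun i => r.coeff (i : ℕ)) h3
  apply hr0
  ext i
  rw [Polynomial.coeff_zero]
  by_cases hi : i < n
  · exact h4 ⟨i, hi⟩
  · exact Polynomial.coeff_eq_zero_of_natDegree_lt (by omega)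

theorem charpoly_sep (hS : Setting k K D d s) (hn : 0 < n) (R : RData K D n) {s₁ : D}
    (hs : (minpoly K s₁).natDegree = n) : (R.f s₁).charpoly.Separable := by
  rw [charpoly_f hS hn R hs]
  exact (sep_f hS R s₁).1

/-- **Density in a maximal subfield**: every family of matrices which commute with the images of
`s₁` is a limit of elements of `K(s₁)` which are close to one for `ν`. -/
theorem exists_seq_commute (hS : Setting k K D d s) (hn : 0 < n)
    (B : Basis (Fin N) k D) {R : {φ : k →+* ℝ // φ d < 0} → RData K D n}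
    (hR : ∀ φ a, (R φ).s (algebraMap k K a) = (((φ : k →+* ℝ) a : ℝ) : ℂ))
    {T : Set (Pl k)} (hT : T.Finite) {ι : Type} {ν : ι → AbsoluteValue D ℝ} (hν : Ctl B T ν)
    {s₁ : D} (hs : (minpoly K s₁).natDegree = n)
    (X : {φ : k →+* ℝ // φ d < 0} → Matrix (Fin n) (Fin n) ℂ)
    (hX : ∀ φ, Commute (X φ) ((R φ).f s₁)) {ε : ℝ} (hε : 0 < ε) :
    ∃ x : ℕ → D, (∀ m, x m ∈ Algebra.adjoin K {s₁} ∧ ∀ i, ν i (x m - 1) < ε) ∧
      ∀ φ, Tendsto (fun m => (R φ).f (x m)) atTop (𝓝 (X φ)) := by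
  refine exists_seq_adjoin hS B hR hT hν s₁ hn X (fun φ => ?_) hε
  obtain ⟨_, _, _, _, _, h⟩ := diag_main ((R φ).f s₁) (charpoly_sep hS hn (R φ) hs)
  exact h _ (hX φ)

/-- **Conjugation into a maximal subfield**: the subring `C` consists of the elements which are
diagonal in the bases `b`. -/
theorem exists_diag (hS : Setting k K D d s) (hn : 0 < n) (hdeg : finrank K D = n ^ 2)
    (B : Basis (Fin N) k D) {R : {φ : k →+* ℝ // φ d < 0} → RData K D n}
    (hR : ∀ φ a, (R φ).s (algebraMap k K a) = (((φ : k →+* ℝ) a : ℝ) : ℂ))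
    {T : Set (Pl k)} (hT : T.Finite) {ι : Type} {ν : ι → AbsoluteValue D ℝ} (hν : Ctl B T ν)
    {s₁ : D} (hs : (minpoly K s₁).natDegree = n) (h : D) {ε : ℝ} (hε : 0 < ε) :
    ∃ (C : Set D) (G : {φ : k →+* ℝ // φ d < 0} → (Matrix (Fin n) (Fin n) ℂ)ˣ),
      (∀ c : K, algebraMap K D c ∈ C) ∧ (∀ x ∈ C, ∀ y ∈ C, x + y ∈ C) ∧
      (∀ x ∈ C, ∀ y ∈ C, x * y ∈ C) ∧ (∀ x ∈ C, x⁻¹ ∈ C) ∧ h ∈ C ∧
      (∃ g : ℕ → D, (∀ m, g m ≠ 0 ∧ ∀ i, ν i (g m - 1) < ε) ∧
        ∀ φ, Tendsto (fun m => (R φ).f (g m)) atTop (𝓝 (G φ : Matrix (Fin n) (Fin n) ℂ))) ∧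
      ∀ x ∈ C, x ≠ 0 → ∃ f : ℕ → D,
        (∀ m, f m ≠ 0 ∧ f m ∈ Algebra.adjoin K {s₁} ∧ ∀ i, ν i (f m - 1) < ε) ∧
        ∀ φ, Tendsto (fun m => (R φ).f (f m)) atTop
          (𝓝 ((G φ : Matrix (Fin n) (Fin n) ℂ) * (R φ).f x *
            ((G φ)⁻¹ : (Matrix (Fin n) (Fin n) ℂ)ˣ))) := by
  have hne : Nonempty (Fin n) := ⟨⟨0, hn⟩⟩
  choose b v hb using fun φ : {φ : k →+* ℝ // φ d < 0} =>
    diag_of_sep ((R φ).f h) (sep_f hS (R φ) h).1 (sep_f hS (R φ) h).2
  choose b' v' hv' hb' hcomm _ using fun φ : {φ : k →+* ℝ // φ d < 0} =>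
    diag_main ((R φ).f s₁) (charpoly_sep hS hn (R φ) hs)
  have hone : ∀ i, ν i ((1 : D) - 1) < ε := fun i => by rw [sub_self, map_zero]; exact hε
  refine ⟨{x | ∀ φ, ∃ w : Fin n → ℂ, (((b φ)⁻¹ : (Matrix (Fin n) (Fin n) ℂ)ˣ) :
      Matrix (Fin n) (Fin n) ℂ) * (R φ).f x * (b φ) = diagonal w},
    fun φ => b' φ * (b φ)⁻¹, ?_, ?_, ?_, ?_, fun φ => ⟨v φ, hb φ⟩, ?_, ?_⟩
  · intro c φ
    refine ⟨fun _ => (R φ).s c, ?_⟩
    rw [(R φ).hf, ← (Matrix.scalar_commute ((R φ).s c) (fun r => Commute.all _ r) _).eq, mul_assoc,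
      Units.inv_mul, mul_one]
    rfl
  · intro x hx y hy φ
    obtain ⟨w, hw⟩ := hx φ
    obtain ⟨w', hw'⟩ := hy φ
    refine ⟨fun i => w i + w' i, ?_⟩
    rw [map_add, mul_add, add_mul, hw, hw', Matrix.diagonal_add]
  · intro x hx y hy φ
    obtain ⟨w, hw⟩ := hx φ
    obtain ⟨w', hw'⟩ := hy φ
    refine ⟨fun i => w i * w' i, ?_⟩
    rw [map_mul, H494.DiagC.conj_mul, hw, hw', Matrix.diagonal_mul_diagonal]
  · intro x hx φ
    rcases eq_or_ne x 0 with rfl | hx0
    · rw [_root_.inv_zero]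
      exact hx φ
    obtain ⟨w, hw⟩ := hx φ
    have h1 : diagonal w * ((((b φ)⁻¹ : (Matrix (Fin n) (Fin n) ℂ)ˣ) :
        Matrix (Fin n) (Fin n) ℂ) * (R φ).f x⁻¹ * (b φ)) = 1 := by
      rw [← hw, ← H494.DiagC.conj_mul, ← map_mul, mul_inv_cancel₀ hx0, map_one, mul_one, Units.inv_mul]
    have h2 : ∀ i, w i ≠ 0 := by
      intro i hi
      have h3 := congrFun (congrFun h1 i) i
      rw [Matrix.diagonal_mul, hi, zero_mul, Matrix.one_apply_eq] at h3
      exact zero_ne_one h3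
    refine ⟨fun i => (w i)⁻¹, ?_⟩
    have h3 : diagonal (fun i => (w i)⁻¹) * diagonal w = 1 := by
      rw [Matrix.diagonal_mul_diagonal]
      simp [h2]
    calc _ = diagonal (fun i => (w i)⁻¹) * diagonal w * ((((b φ)⁻¹ :
          (Matrix (Fin n) (Fin n) ℂ)ˣ) : Matrix (Fin n) (Fin n) ℂ) * (R φ).f x⁻¹ * (b φ)) := by
          rw [h3, one_mul]
      _ = _ := by rw [mul_assoc, h1, mul_one]
  · obtain ⟨g, hg1, hg2⟩ := exists_seq hS hn hdeg B hR hT hν 1
      (fun φ => ((b' φ * (b φ)⁻¹ : (Matrix (Fin n) (Fin n) ℂ)ˣ) : Matrix (Fin n) (Fin n) ℂ)) hε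
    exact shift_ne (f := fun φ => (R φ).f) (P := fun x => ∀ i, ν i (x - 1) < ε) hg2
      (fun φ => Units.ne_zero _) hg1 (Or.inr hone)
  · intro x hx hx0
    have h1 : ∀ φ, Commute (((b' φ * (b φ)⁻¹ : (Matrix (Fin n) (Fin n) ℂ)ˣ) :
        Matrix (Fin n) (Fin n) ℂ) * (R φ).f x *
          (((b' φ * (b φ)⁻¹)⁻¹ : (Matrix (Fin n) (Fin n) ℂ)ˣ) : Matrix (Fin n) (Fin n) ℂ))
          ((R φ).f s₁) := by
      intro φ
      obtain ⟨w, hw⟩ := hx φ
      rw [hcomm φ]
      refine ⟨w, ?_⟩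
      rw [← hw]
      simp [mul_assoc]
    obtain ⟨f, hf1, hf2⟩ := exists_seq_commute hS hn B hR hT hν hs _ h1 hε
    exact shift_ne (f := fun φ => (R φ).f)
      (P := fun x => x ∈ Algebra.adjoin K {s₁} ∧ ∀ i, ν i (x - 1) < ε) hf2
      (fun φ h0 => by
        have h2 : IsUnit (((b' φ * (b φ)⁻¹ : (Matrix (Fin n) (Fin n) ℂ)ˣ) :
          Matrix (Fin n) (Fin n) ℂ) * (R φ).f x *
          (((b' φ * (b φ)⁻¹)⁻¹ : (Matrix (Fin n) (Fin n) ℂ)ˣ) : Matrix (Fin n) (Fin n) ℂ)) :=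
          ((Units.isUnit _).mul (f_unit (R φ) hx0)).mul (Units.isUnit _)
        rw [h0] at h2
        exact not_isUnit_zero h2) hf1
      (Or.inr ⟨Subalgebra.one_mem _, hone⟩)

end Vale.Agent.P011.H263
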