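import Vale.Agent.P011.H263.RealNF2
import Vale.Agent.P011.H518.Real.Mat
import Vale.Agent.P011.H775.Odd.TopNF

/-!
**The real places: the concrete data**, for every finite set `T` of finite places of `k`, in the
letters of `H775/Odd/TopNorm` (the submultiplicative norm `pn`).
-/

open NumberField IsDedekindDomain Module Matrix Filter Topology

set_option linter.style.haveILetI false
set_option linter.unusedSectionVars false

namespace Vale.Agent.P011.H263

open Vale.Agent.P011.H775.Top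

/-! ### The group of the elements close to one and the ring of the parameters -/

section norm

variable {k D : Type} [Field k] [DivisionRing D] [Algebra k D] {ι κ : Type} [Fintype ι]
  [Fintype κ] [Nonempty ι]

/-- The elements close to one. -/
def HT (B : Basis κ k D) (a : ι → AbsoluteValue k ℝ) (ε : ℝ) : Set D := {x | pn B a (x - 1) < ε}

variable (B : Basis κ k D) {a : ι → AbsoluteValue k ℝ}

theorem mem_HT {ε : ℝ} {x : D} : x ∈ HT B a ε ↔ pn B a (x - 1) < ε := Iff.rfl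

theorem HT_mono {ε ε' : ℝ} (h : ε ≤ ε') : HT B a ε ⊆ HT B a ε' := fun _ hx => lt_of_lt_of_le hx h

theorem HT_mem {ε : ℝ} (hε : 0 < ε) : HT B a ε ∈ @nhds D (topD B a) 1 :=
  (mem_nhds_iff_pn B a).mpr ⟨ε, hε, fun _ hx => hx⟩

theorem exists_HT {U : Set D} (hU : U ∈ @nhds D (topD B a) 1) :
    ∃ ε : ℝ, 0 < ε ∧ ε ≤ 1 ∧ HT B a ε ⊆ U := by
  obtain ⟨ε, hε, h⟩ := (mem_nhds_iff_pn B a).mp hU
  exact ⟨min ε 1, lt_min hε one_pos, min_le_right _ _, fun x hx =>
    h x (lt_of_lt_of_le hx (min_le_left _ _))⟩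

theorem pn_le_one (ha : ∀ i, IsNonarchimedean (a i)) {x : D} (h : pn B a (x - 1) ≤ 1) :
    pn B a x ≤ 1 := by
  have h1 := pn_add_le_max B a ha (x - 1) 1
  rw [sub_add_cancel, pn_one] at h1
  exact h1.trans (max_le h le_rfl)

theorem pn_sub_le_max (ha : ∀ i, IsNonarchimedean (a i)) (x y : D) :
    pn B a (x - y) ≤ max (pn B a x) (pn B a y) := by
  have h := pn_add_le_max B a ha x (-y)
  rwa [pn_neg, ← sub_eq_add_neg] at h

theorem ne_of_HT {ε : ℝ} (hε1 : ε ≤ 1) {x : D} (hx : x ∈ HT B a ε) : x ≠ 0 := by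
  rintro rfl
  rw [mem_HT, zero_sub, pn_neg, pn_one] at hx
  linarith

theorem inv_HT (ha : ∀ i, IsNonarchimedean (a i)) {ε : ℝ} (hε1 : ε ≤ 1) {x : D}
    (hx : x ∈ HT B a ε) : x⁻¹ ∈ HT B a ε := by
  have hx0 := ne_of_HT B hε1 hx
  rw [mem_HT] at hx
  have e1 : x⁻¹ - 1 = -((x - 1) * x⁻¹) := by
    rw [sub_mul, mul_inv_cancel₀ hx0, one_mul]
    abel
  have h1 : pn B a (x⁻¹ - 1) ≤ pn B a (x - 1) * pn B a x⁻¹ := by
    rw [e1, pn_neg]
    exact pn_mul_le B a _ _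
  have h2 : pn B a x⁻¹ ≤ 1 := by
    by_contra hlt
    push Not at hlt
    have h3 := pn_add_le_max B a ha (x⁻¹ - 1) 1
    rw [sub_add_cancel, pn_one] at h3
    rcases le_max_iff.mp h3 with h4 | h4
    · have h5 := h4.trans h1
      have h6 := pn_nonneg B a (x - 1)
      nlinarith
    · linarith
  rw [mem_HT]
  refine h1.trans_lt ?_
  have h6 := pn_nonneg B a (x - 1)
  nlinarith

theorem mul_HT (ha : ∀ i, IsNonarchimedean (a i)) {ε : ℝ} (hε1 : ε ≤ 1) {x y : D}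
    (hx : x ∈ HT B a ε) (hy : y ∈ HT B a ε) : x * y ∈ HT B a ε := by
  have hy1 : pn B a y ≤ 1 := pn_le_one B ha ((mem_HT B).mp hy |>.le.trans hε1)
  rw [mem_HT] at hx hy ⊢
  have e1 : x * y - 1 = (x - 1) * y + (y - 1) := by
    rw [sub_mul, one_mul]
    abel
  rw [e1]
  refine (pn_add_le_max B a ha _ _).trans_lt (max_lt ?_ hy)
  refine (pn_mul_le B a _ _).trans_lt ?_
  have h6 := pn_nonneg B a (x - 1)
  nlinarith [pn_nonneg B a y]

theorem one_HT {ε : ℝ} (hε : 0 < ε) : (1 : D) ∈ HT B a ε := by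
  rw [mem_HT, sub_self, pn_zero]
  exact hε

theorem grp_HT (ha : ∀ i, IsNonarchimedean (a i)) {ε : ℝ} (hε : 0 < ε) (hε1 : ε ≤ 1) :
    H518.Real.Grp (HT B a ε) where
  one := one_HT B hε
  mul := mul_HT B ha hε1
  inv := inv_HT B ha hε1
  ne := ne_of_HT B hε1

/-- The parameters. -/
def OT (K : Type) [Field K] [Algebra K D] (B : Basis κ k D) {a : ι → AbsoluteValue k ℝ}
    (ha : ∀ i, IsNonarchimedean (a i)) : Subring K where
  carrier := {z | pn B a (algebraMap K D z) ≤ 1}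
  mul_mem' {x y} hx hy := by
    change pn B a (algebraMap K D (x * y)) ≤ 1
    rw [map_mul]
    exact (pn_mul_le B a _ _).trans (mul_le_one₀ hx (pn_nonneg B a _) hy)
  one_mem' := by
    change pn B a (algebraMap K D 1) ≤ 1
    rw [map_one, pn_one]
  add_mem' {x y} hx hy := by
    change pn B a (algebraMap K D (x + y)) ≤ 1
    rw [map_add]
    exact (pn_add_le_max B a ha _ _).trans (max_le hx hy)
  zero_mem' := by
    change pn B a (algebraMap K D 0) ≤ 1
    rw [map_zero, pn_zero]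
    exact zero_le_one
  neg_mem' {x} hx := by
    change pn B a (algebraMap K D (-x)) ≤ 1
    rw [map_neg, pn_neg]
    exact hx

theorem mem_OT {K : Type} [Field K] [Algebra K D] (ha : ∀ i, IsNonarchimedean (a i)) {z : K} :
    z ∈ OT K B ha ↔ pn B a (algebraMap K D z) ≤ 1 := Iff.rfl

theorem conv_HT {K : Type} [Field K] [Algebra K D] (ha : ∀ i, IsNonarchimedean (a i)) {ε : ℝ}
    {z : K} (hz : z ∈ OT K B ha) {h : D} (hh : h ∈ HT B a ε) :
    1 + algebraMap K D z * (h - 1) ∈ HT B a ε := by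
  rw [mem_HT] at hh ⊢
  rw [add_sub_cancel_left]
  refine (pn_mul_le B a _ _).trans_lt ?_
  have h1 := (mem_OT B ha).mp hz
  have h2 := pn_nonneg B a (h - 1)
  nlinarith [pn_nonneg B a (algebraMap K D z)]

end norm

/-! ### Number fields -/

section nf

open Vale.Agent.P011.Arith Vale.Agent.P011.Even Vale.Agent.P011.H494.DiagC
open Vale.Agent.P011.RP (RData)

variable {k K D : Type} [Field k] [NumberField k] [Field K] [StarRing K]
  [DivisionRing D] [StarRing D] [Algebra k K] [Algebra k D] [Algebra K D] [IsScalarTower k K D]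
  {d : kˣ} {s : K} {n N : ℕ}

/-- **Density, in the letters of the topology.** -/
theorem exists_seqV (hS : Setting k K D d s) (hn : 0 < n) (hdeg : finrank K D = n ^ 2)
    (B : Basis (Fin N) k D) {R : {φ : k →+* ℝ // φ d < 0} → RData K D n}
    (hR : ∀ φ a, (R φ).s (algebraMap k K a) = (((φ : k →+* ℝ) a : ℝ) : ℂ))
    {T : Finset (Pl k)} [Nonempty T] (hT : ∀ p ∈ T, ∃ v : HeightOneSpectrum (𝓞 k), p = Sum.inl v)
    {y : D} {V : Set D} (hV : V ∈ @nhds D (topD B (av T)) y)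
    (X : {φ : k →+* ℝ // φ d < 0} → Matrix (Fin n) (Fin n) ℂ) :
    ∃ x : ℕ → D, (∀ m, x m ∈ V) ∧ ∀ φ, Tendsto (fun m => (R φ).f (x m)) atTop (𝓝 (X φ)) := by
  obtain ⟨δ, hδ, hδV⟩ := (mem_nhds_iff_nm B T).mp hV
  exact exists_seq_of (P := fun x => x ∈ V) (f := fun φ => (R φ).f)
    fun O hO => by
      obtain ⟨x, hx1, hx2⟩ := dense_near hS hn hdeg B hR (T : Set (Pl k)) T.finite_toSet
        (fun _ => y) (fun _ => δ) (fun _ => hδ) hO
      refine ⟨x, hδV x fun p hp => ?_, hx2⟩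
      obtain ⟨v, rfl⟩ := hT p hp
      exact hx1 v hp

/-- **Density in a maximal subfield, in the letters of the topology.** -/
theorem exists_seqV_commute (hS : Setting k K D d s) (hn : 0 < n)
    (B : Basis (Fin N) k D) {R : {φ : k →+* ℝ // φ d < 0} → RData K D n}
    (hR : ∀ φ a, (R φ).s (algebraMap k K a) = (((φ : k →+* ℝ) a : ℝ) : ℂ))
    {T : Finset (Pl k)} [Nonempty T] (hT : ∀ p ∈ T, ∃ v : HeightOneSpectrum (𝓞 k), p = Sum.inl v)
    {V : Set D} (hV : V ∈ @nhds D (topD B (av T)) 1)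
    {s₁ : D} (hs : (minpoly K s₁).natDegree = n)
    (X : {φ : k →+* ℝ // φ d < 0} → Matrix (Fin n) (Fin n) ℂ)
    (hX : ∀ φ, Commute (X φ) ((R φ).f s₁)) :
    ∃ x : ℕ → D, (∀ m, x m ∈ Algebra.adjoin K {s₁} ∧ x m ∈ V) ∧
      ∀ φ, Tendsto (fun m => (R φ).f (x m)) atTop (𝓝 (X φ)) := by
  obtain ⟨δ, hδ, hδV⟩ := (mem_nhds_iff_nm B T).mp hV
  have h1 : ∀ φ, ∃ γ : Fin n → ℂ, ∑ j : Fin n, γ j • (R φ).f s₁ ^ (j : ℕ) = X φ := fun φ => by
    obtain ⟨_, _, _, _, _, h⟩ := diag_main ((R φ).f s₁) (charpoly_sep hS hn (R φ) hs)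
    have := h _ (hX φ)
    rwa [Submodule.mem_span_range_iff_exists_fun] at this
  choose γ hγ using h1
  exact exists_seq_of (P := fun x => x ∈ Algebra.adjoin K {s₁} ∧ x ∈ V)
    (f := fun φ => (R φ).f) fun O hO => by
      have hO' : O ∈ 𝓝 (fun φ => ∑ j : Fin n, γ φ j • (R φ).f s₁ ^ (j : ℕ)) := by
        rw [show (fun φ => ∑ j : Fin n, γ φ j • (R φ).f s₁ ^ (j : ℕ)) = X from funext hγ]
        exact hO
      obtain ⟨c, hc1, hc2⟩ := dense_poly hS hR B (T : Set (Pl k)) T.finite_toSet (fun _ => δ)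
        (fun _ => hδ) s₁ hn γ hO'
      refine ⟨_, ⟨?_, hδV _ fun p hp => ?_⟩, hc2⟩
      · refine Subalgebra.sum_mem _ fun j _ => ?_
        exact Subalgebra.mul_mem _ (Subalgebra.algebraMap_mem _ _)
          (Subalgebra.pow_mem _ (Algebra.self_mem_adjoin_singleton K s₁) _)
      · obtain ⟨v, rfl⟩ := hT p hp
        exact hc1 v hp

theorem val_nat_le (v : HeightOneSpectrum (𝓞 k)) (m : ℕ) : v.valuation k (m : k) ≤ 1 := by
  have h := v.valuation_le_one (K := k) (m : 𝓞 k)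
  have e : (algebraMap (𝓞 k) k) (m : 𝓞 k) = (m : k) := map_natCast _ _
  rw [← e]
  exact h

/-- A positive integer which is small at all the places of `T`. -/
theorem exists_nat (T : Finset (Pl k))
    (hT : ∀ p ∈ T, ∃ v : HeightOneSpectrum (𝓞 k), p = Sum.inl v) :
    ∃ Q : ℕ, 0 < Q ∧ ∀ p ∈ T, plAbv p (Q : k) < 1 := by
  classical
  have hle : ∀ (v : HeightOneSpectrum (𝓞 k)) (m : ℕ), plAbv (Sum.inl v) (m : k) ≤ 1 := by
    intro v m
    rw [H182.plAbv_le_one]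
    exact val_nat_le v m
  induction T using Finset.induction_on with
  | empty => exact ⟨1, one_pos, fun p hp => absurd hp (Finset.notMem_empty p)⟩
  | insert p T _ ih =>
    obtain ⟨Q, hQ, hQT⟩ := ih fun q hq => hT q (Finset.mem_insert_of_mem hq)
    obtain ⟨v, rfl⟩ := hT p (Finset.mem_insert_self _ _)
    have h1 : plAbv (Sum.inl v) ((Ideal.absNorm v.asIdeal : ℕ) : k) < 1 := by
      rw [plAbv_lt_one]
      have h2 : ((Ideal.absNorm v.asIdeal : ℕ) : 𝓞 k) ∈ v.asIdeal := Ideal.absNorm_mem v.asIdeal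
      have h3 : v.valuation k (algebraMap (𝓞 k) k ((Ideal.absNorm v.asIdeal : ℕ) : 𝓞 k)) < 1 := by
        rw [HeightOneSpectrum.valuation_of_algebraMap]
        exact (v.intValuation_lt_one_iff_mem _).mpr h2
      rwa [map_natCast] at h3
    refine ⟨Ideal.absNorm v.asIdeal * Q, Nat.mul_pos (absNorm_pos' v) hQ, fun q hq => ?_⟩
    rw [Nat.cast_mul, map_mul]
    obtain ⟨w, rfl⟩ := hT q hq
    rcases Finset.mem_insert.mp hq with h2 | h2
    · rw [h2]
      exact mul_lt_one_of_nonneg_of_lt_one_left (AbsoluteValue.nonneg _ _) h1 (hle v Q)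
    · exact mul_lt_one_of_nonneg_of_lt_one_right (hle w _) (AbsoluteValue.nonneg _ _) (hQT _ h2)

theorem adjoin_inv {K D : Type} [Field K] [DivisionRing D] [Algebra K D] [FiniteDimensional K D]
    (S : Subalgebra K D) {x : D} (hx : x ∈ S) : x⁻¹ ∈ S := by
  rcases eq_or_ne x 0 with rfl | hx0
  · rw [_root_.inv_zero]
    exact hx
  let f : S →ₗ[K] S := LinearMap.mulLeft K ⟨x, hx⟩
  have hf : Function.Injective f := by
    intro a b hab
    have h1 : x * (a : D) = x * b := congrArg Subtype.val hab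
    exact Subtype.ext (mul_left_cancel₀ hx0 h1)
  obtain ⟨y, hy⟩ := LinearMap.injective_iff_surjective.mp hf 1
  have h1 : x * (y : D) = 1 := congrArg Subtype.val hy
  rw [inv_eq_of_mul_eq_one_right h1]
  exact y.2

/-- **The concrete data.** -/
theorem con (hS : Setting k K D d s) (hdeg : finrank K D = n ^ 2) [NeZero n]
    [Fintype {φ : k →+* ℝ // φ d < 0}]
    (B : Basis (Fin N) k D) {R : {φ : k →+* ℝ // φ d < 0} → RData K D n}
    (hR : ∀ φ a, (R φ).s (algebraMap k K a) = (((φ : k →+* ℝ) a : ℝ) : ℂ))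
    {T : Finset (Pl k)} [Nonempty T] (hT : ∀ p ∈ T, ∃ v : HeightOneSpectrum (𝓞 k), p = Sum.inl v)
    {s₁ : D} (hs : (minpoly K s₁).natDegree = n) {ε : ℝ} (hε : 0 < ε) (hε1 : ε ≤ 1) :
    H518.Real.Con (fun φ => (R φ).s) (fun φ => (R φ).f) (OT K B (av_nonarch hT))
      (HT B (av T) ε) (Algebra.adjoin K {s₁} : Set D) := by
  have hn : 0 < n := Nat.pos_of_ne_zero (NeZero.ne n)
  have := hS.fin
  have ha := av_nonarch hT
  have hHT : HT B (av T) ε ∈ @nhds D (topD B (av T)) 1 := HT_mem B hε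
  refine
    { J_alg := fun φ c => ?_
      imag := ?_
      den := fun M₀ => ?_
      grp := grp_HT B ha hε hε1
      conv := fun z hz h hh _ => conv_HT B ha hz hh
      dense := fun X _ => exists_seqV hS hn hdeg B hR hT hHT X
      Fone := Subalgebra.one_mem _
      Fmul := fun x hx y hy => Subalgebra.mul_mem _ hx hy
      Finv := fun x hx => adjoin_inv _ hx
      denseF := ⟨s₁, fun φ => charpoly_sep hS hn (R φ) hs, fun X _ hX => ?_⟩
      sep := fun h _ φ => ⟨_, (sep_f hS (R φ) h).1, (sep_f hS (R φ) h).2⟩ }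
  · rw [(R φ).hf, Matrix.scalar_apply, Matrix.smul_one_eq_diagonal]
  · obtain ⟨t, ht0, ht⟩ := exists_small_nf T
    have h1 := tendsto_pow B (av T) ht (algebraMap K D s)
    have h2 : {x : D | pn B (av T) (x - 0) < 1} ∈ @nhds D (topD B (av T)) 0 :=
      (mem_nhds_iff_pn B (av T)).mpr ⟨1, one_pos, fun _ hx => hx⟩
    obtain ⟨m, hm⟩ := (h1.eventually h2).exists
    refine ⟨algebraMap k K (t ^ m) * s, ?_, fun φ => ⟨(φ : k →+* ℝ) (t ^ m) * ((R φ).s s).im, ?_,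
      ?_⟩⟩
    · rw [mem_OT, map_mul, ← IsScalarTower.algebraMap_apply, ← Algebra.smul_def]
      have h3 : pn B (av T) (t ^ m • algebraMap K D s - 0) < 1 := hm
      rw [sub_zero] at h3
      exact h3.le
    · exact mul_ne_zero ((_root_.map_ne_zero _).mpr (pow_ne_zero _ ht0)) (s_eq hS (R φ)).2
    · rw [map_mul, hR, Complex.ofReal_mul, mul_assoc, ← (s_eq hS (R φ)).1]
  · obtain ⟨Q, hQ, hQT⟩ := exists_nat T hT
    refine ⟨1 + M₀ * Q, ?_, by omega, ?_⟩
    · have : M₀ * 1 ≤ M₀ * Q := Nat.mul_le_mul_left _ hQ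
      omega
    · rw [mem_OT, map_inv₀, map_natCast]
      have h1 : ((1 + M₀ * Q : ℕ) : D) ∈ HT B (av T) 1 := by
        rw [mem_HT]
        have e1 : ((1 + M₀ * Q : ℕ) : D) - 1 = ((M₀ * Q : ℕ) : k) • (1 : D) := by
          rw [Algebra.smul_def, mul_one, map_natCast]
          push_cast
          rw [add_sub_cancel_left]
        obtain ⟨p0, hp0⟩ := Finite.exists_max fun p : T => av T p ((M₀ * Q : ℕ) : k)
        have h2 : av T p0 ((M₀ * Q : ℕ) : k) < 1 := by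
          obtain ⟨v, hv⟩ := hT p0.1 p0.2
          have h3 : av T p0 ((M₀ : ℕ) : k) ≤ 1 := by
            change plAbv p0.1 (M₀ : k) ≤ 1
            rw [hv, H182.plAbv_le_one]
            exact val_nat_le v M₀
          rw [Nat.cast_mul, map_mul]
          exact mul_lt_one_of_nonneg_of_lt_one_right h3 (AbsoluteValue.nonneg _ _)
            (hQT _ p0.2)
        rw [e1]
        refine (pn_smul_le B (av T) _ _ hp0 (AbsoluteValue.nonneg _ _)).trans_lt ?_
        rw [pn_one, mul_one]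
        exact h2
      have h2 := inv_HT B ha le_rfl h1
      exact pn_le_one B ha (le_of_lt h2)
  · obtain ⟨x, hx1, hx2⟩ := exists_seqV_commute hS hn B hR hT hHT hs X hX
    exact ⟨x, fun m => (hx1 m).1, fun m => (hx1 m).2, hx2⟩

theorem plAbv_one_add {T : Finset (Pl k)}
    (hT : ∀ p ∈ T, ∃ v : HeightOneSpectrum (𝓞 k), p = Sum.inl v) {Q : ℕ}
    (hQ : ∀ p ∈ T, plAbv p (Q : k) < 1) (m : ℕ) {p : Pl k} (hp : p ∈ T) :
    plAbv p ((1 + m * Q : ℕ) : k) = 1 := by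
  obtain ⟨v, rfl⟩ := hT p hp
  have h1 : plAbv (Sum.inl v) ((m * Q : ℕ) : k) < 1 := by
    have h3 : plAbv (Sum.inl v) ((m : ℕ) : k) ≤ 1 := by
      rw [H182.plAbv_le_one]
      exact val_nat_le v m
    rw [Nat.cast_mul, map_mul]
    exact mul_lt_one_of_nonneg_of_lt_one_right h3 (AbsoluteValue.nonneg _ _) (hQ _ hp)
  have hna := H182.isNonarch (k := k) v
  have h2 : plAbv (Sum.inl v) ((1 + m * Q : ℕ) : k) ≤ 1 := by
    rw [Nat.cast_add, Nat.cast_one]
    refine (hna 1 ((m * Q : ℕ) : k)).trans (max_le ?_ h1.le)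
    rw [map_one]
  have h3 : 1 ≤ plAbv (Sum.inl v) ((1 + m * Q : ℕ) : k) := by
    have h4 := hna ((1 + m * Q : ℕ) : k) (-((m * Q : ℕ) : k))
    have e : ((1 + m * Q : ℕ) : k) + -((m * Q : ℕ) : k) = 1 := by
      push_cast
      ring
    rw [e, map_one, AbsoluteValue.map_neg] at h4
    rcases le_max_iff.mp h4 with h5 | h5
    · exact h5
    · linarith
  exact le_antisymm h2 h3

/-- **The two levels.** -/
theorem two_level {R : {φ : k →+* ℝ // φ d < 0} → RData K D n}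
    (hR : ∀ φ a, (R φ).s (algebraMap k K a) = (((φ : k →+* ℝ) a : ℝ) : ℂ))
    (B : Basis (Fin N) k D) {T : Finset (Pl k)} [Nonempty T]
    (hT : ∀ p ∈ T, ∃ v : HeightOneSpectrum (𝓞 k), p = Sum.inl v) {ε : ℝ} (hε : 0 < ε)
    (hε1 : ε ≤ 1) :
    ∃ ε₂ : ℝ, 0 < ε₂ ∧ ε₂ ≤ ε ∧ ∀ η : ℝ, 0 < η → ∃ p : K, p ≠ 0 ∧ (∀ φ, ‖(R φ).s p‖ < η) ∧
      ∀ g ∈ HT B (av T) ε₂, 1 + algebraMap K D p * g ∈ HT B (av T) ε ∧
        ∀ m ∈ HT B (av T) ε₂, m + (algebraMap K D p)⁻¹ * (g⁻¹ * (m - 1)) ∈ HT B (av T) ε := by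
  have ha := av_nonarch hT
  obtain ⟨t, ht0, ht⟩ := exists_small_nf T
  obtain ⟨i0, hi0⟩ := Finite.exists_max fun p : T => av T p t
  obtain ⟨m₀, hm₀⟩ := exists_pow_lt_of_lt_one hε (ht i0)
  have hq0 : t ^ m₀ ≠ 0 := pow_ne_zero _ ht0
  obtain ⟨i1, hi1⟩ := Finite.exists_max fun p : T => av T p (t ^ m₀)⁻¹
  obtain ⟨A, hA⟩ : ∃ A, A = av T i1 (t ^ m₀)⁻¹ := ⟨_, rfl⟩
  rw [← hA] at hi1
  have hA0 : 0 < A := by
    rw [hA]
    exact (av T i1).pos (inv_ne_zero hq0)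
  obtain ⟨Q, hQ, hQT⟩ := exists_nat T hT
  refine ⟨min ε (ε / A), lt_min hε (div_pos hε hA0), min_le_left _ _, fun η hη => ?_⟩
  classical
  have _ : Fintype (k →+* ℝ) := Fintype.ofFinite _
  obtain ⟨C, hC⟩ : ∃ C : ℝ, C = ∑ φ : k →+* ℝ, |φ (t ^ m₀)| := ⟨_, rfl⟩
  have hCle : ∀ φ : k →+* ℝ, |φ (t ^ m₀)| ≤ C := fun φ => by
    rw [hC]
    exact Finset.single_le_sum (f := fun φ : k →+* ℝ => |φ (t ^ m₀)|)
      (fun _ _ => abs_nonneg _) (Finset.mem_univ φ)
  obtain ⟨M₀, hM₀⟩ := exists_nat_gt (C / η)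
  obtain ⟨c, hc⟩ : ∃ c : k, c = ((1 + M₀ * Q : ℕ) : k) := ⟨_, rfl⟩
  have hc0 : c ≠ 0 := by
    rw [hc]
    exact_mod_cast (by omega : 1 + M₀ * Q ≠ 0)
  have hc1 : ∀ p : T, av T p c = 1 := fun p => by
    rw [hc]
    exact plAbv_one_add hT hQT M₀ p.2
  refine ⟨algebraMap k K (t ^ m₀ * c⁻¹), (_root_.map_ne_zero _).mpr
    (mul_ne_zero hq0 (inv_ne_zero hc0)), fun φ => ?_, fun g hg => ?_⟩
  · rw [hR, Complex.norm_real, Real.norm_eq_abs, map_mul, map_inv₀, abs_mul, abs_inv]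
    have h1 : (φ : k →+* ℝ) c = ((1 + M₀ * Q : ℕ) : ℝ) := by rw [hc, map_natCast]
    have h2 : (M₀ : ℝ) ≤ ((1 + M₀ * Q : ℕ) : ℝ) := by
      have h3 : M₀ * 1 ≤ M₀ * Q := Nat.mul_le_mul_left _ hQ
      exact_mod_cast (by omega : M₀ ≤ 1 + M₀ * Q)
    have h4 : 0 < ((1 + M₀ * Q : ℕ) : ℝ) := by exact_mod_cast (by omega : 0 < 1 + M₀ * Q)
    rw [h1, abs_of_pos h4, ← div_eq_mul_inv, div_lt_iff₀ h4]
    rw [div_lt_iff₀ hη] at hM₀
    have h5 := hCle φ
    nlinarith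
  · have hg1 : pn B (av T) g ≤ 1 :=
      pn_le_one B ha (le_of_lt (lt_of_lt_of_le hg ((min_le_left _ _).trans hε1)))
    constructor
    · rw [mem_HT, add_sub_cancel_left, ← IsScalarTower.algebraMap_apply, ← Algebra.smul_def]
      refine (pn_smul_le B (av T) _ g (r := av T i0 t ^ m₀) (fun p => ?_)
        (pow_nonneg (AbsoluteValue.nonneg _ _) _)).trans_lt ?_
      · rw [map_mul, map_inv₀, hc1, inv_one, mul_one, map_pow]
        exact pow_le_pow_left₀ (AbsoluteValue.nonneg _ _) (hi0 p) _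
      · have h1 : 0 ≤ av T i0 t ^ m₀ := pow_nonneg (AbsoluteValue.nonneg _ _) _
        nlinarith [pn_nonneg B (av T) g]
    · intro m hm
      have hg' : g⁻¹ ∈ HT B (av T) (min ε (ε / A)) := inv_HT B ha ((min_le_left _ _).trans hε1) hg
      have hg1' : pn B (av T) g⁻¹ ≤ 1 :=
        pn_le_one B ha (le_of_lt (lt_of_lt_of_le hg' ((min_le_left _ _).trans hε1)))
      have hm1 : pn B (av T) (m - 1) < ε := lt_of_lt_of_le hm (min_le_left _ _)
      have hm2 : pn B (av T) (m - 1) < ε / A := lt_of_lt_of_le hm (min_le_right _ _)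
      have hm0 := pn_nonneg B (av T) (m - 1)
      rw [mem_HT, add_sub_right_comm]
      refine (pn_add_le_max B (av T) ha _ _).trans_lt (max_lt hm1 ?_)
      rw [← map_inv₀, ← map_inv₀, ← IsScalarTower.algebraMap_apply, ← Algebra.smul_def]
      refine (pn_smul_le B (av T) _ _ (r := A) (fun p => ?_) hA0.le).trans_lt ?_
      · rw [mul_inv, inv_inv, map_mul, hc1, mul_one]
        exact hi1 p
      · have h2 := pn_mul_le B (av T) g⁻¹ (m - 1)
        have h3 : pn B (av T) g⁻¹ * pn B (av T) (m - 1) ≤ 1 * pn B (av T) (m - 1) :=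
          mul_le_mul_of_nonneg_right hg1' hm0
        rw [one_mul] at h3
        rw [lt_div_iff₀ hA0] at hm2
        calc A * pn B (av T) (g⁻¹ * (m - 1)) ≤ A * pn B (av T) (m - 1) :=
              mul_le_mul_of_nonneg_left (h2.trans h3) hA0.le
          _ = pn B (av T) (m - 1) * A := mul_comm _ _
          _ < ε := hm2

/-- **The two groups** in the letters of `H518/Real/Mat`. -/
theorem exists_two {R : {φ : k →+* ℝ // φ d < 0} → RData K D n}
    (hR : ∀ φ a, (R φ).s (algebraMap k K a) = (((φ : k →+* ℝ) a : ℝ) : ℂ))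
    (B : Basis (Fin N) k D) {T : Finset (Pl k)} [Nonempty T]
    (hT : ∀ p ∈ T, ∃ v : HeightOneSpectrum (𝓞 k), p = Sum.inl v) {ε : ℝ} (hε : 0 < ε)
    (hε1 : ε ≤ 1) :
    ∃ ε₂ : ℝ, 0 < ε₂ ∧ ε₂ ≤ ε ∧ ∀ ε' : ℝ, ε' ≤ ε₂ →
      H518.Real.Two (fun φ => (R φ).s) (HT B (av T) ε') (HT B (av T) ε) := by
  obtain ⟨ε₂, h1, h2, h3⟩ := two_level hR B hT hε hε1
  refine ⟨ε₂, h1, h2, fun ε' hε' =>
    { grp := grp_HT B (av_nonarch hT) hε hε1
      sub := HT_mono B (hε'.trans h2)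
      tw := fun η hη => ?_ }⟩
  obtain ⟨p, hp, hpη, h4⟩ := h3 η hη
  refine ⟨p, hp, hpη, fun g hg _ => (h4 g (HT_mono B hε' hg)).1, fun g hg m hm _ => ?_⟩
  rw [map_inv₀]
  exact (h4 g (HT_mono B hε' hg)).2 m (HT_mono B hε' hm)

end nf

end Vale.Agent.P011.H263
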